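import Vale.Agent.P157.Weak.Cor
import Vale.Agent.P150.Scalar

/-!
Two-point function of an even weight at correlated standard Gaussians: beyond the second chaos
the correlation decays at least like the fourth power.
-/

open MeasureTheory ProbabilityTheory Filter Topology

namespace Vale.Agent.P157.Threshold

/-- The standard Gaussian law. -/
noncomputable abbrev g1 : Measure ℝ := gaussianReal 0 1

/-- Measurable with slow Gaussian growth. -/
def Nice (f : ℝ → ℝ) : Prop := Measurable f ∧ ∃ C, ∀ x, |f x| ≤ C * Real.exp (x ^ 2 / 20)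

/-- Complementary coefficient of a correlation. -/
noncomputable def co (q : ℝ) : ℝ := √(1 - q ^ 2)

/-- Conditional expectation at correlation `q`. -/
noncomputable def ou (f : ℝ → ℝ) (q x : ℝ) : ℝ := ∫ y, f (q * x + co q * y) ∂g1

theorem co_sq {q : ℝ} (hq : |q| ≤ 1) : q ^ 2 + co q ^ 2 = 1 := by
  rw [co, Real.sq_sqrt]
  · ring
  · nlinarith [sq_abs q, abs_nonneg q]

theorem lin_sq_le {q s x y : ℝ} (h : q ^ 2 + s ^ 2 = 1) : (q * x + s * y) ^ 2 ≤ x ^ 2 + y ^ 2 := by
  nlinarith [sq_nonneg (q * y - s * x)]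

theorem one_add_le (y : ℝ) : 1 + y ≤ 40 * Real.exp (y / 40) := by
  have := Real.add_one_le_exp (y / 40)
  have := Real.exp_pos (y / 40)
  linarith

theorem int_exp {c : ℝ} (hc : c < 1 / 2) : Integrable (fun x => Real.exp (c * x ^ 2)) g1 :=
  (P166.integral_exp_sq hc).1

theorem Nice.bound {f : ℝ → ℝ} (hf : Nice f) : ∃ C, 0 ≤ C ∧ ∀ x, |f x| ≤ C * Real.exp (x ^ 2 / 20) := by
  obtain ⟨C, hC⟩ := hf.2
  refine ⟨C, ?_, hC⟩
  have := hC 0
  simp at this
  exact (abs_nonneg _).trans this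

theorem Nice.integrable {f : ℝ → ℝ} (hf : Nice f) : Integrable f g1 := by
  obtain ⟨C, -, hC⟩ := hf.bound
  refine ((int_exp (c := 1 / 20) (by norm_num)).const_mul C).mono' hf.1.aestronglyMeasurable
    (ae_of_all _ fun x => ?_)
  rw [Real.norm_eq_abs]
  convert hC x using 3
  ring

theorem Nice.integrable_mul {f h : ℝ → ℝ} (hf : Nice f) (hh : Nice h) :
    Integrable (fun x => f x * h x) g1 := by
  obtain ⟨C, hC0, hC⟩ := hf.bound
  obtain ⟨D, -, hD⟩ := hh.bound
  refine ((int_exp (c := 1 / 10) (by norm_num)).const_mul (C * D)).mono'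
    (hf.1.mul hh.1).aestronglyMeasurable (ae_of_all _ fun x => ?_)
  rw [Real.norm_eq_abs, abs_mul]
  refine (mul_le_mul (hC x) (hD x) (abs_nonneg _) (by positivity)).trans_eq ?_
  rw [mul_mul_mul_comm, ← Real.exp_add]
  congr 2; ring

/-- A pair of unit linear forms of a Gaussian vector is a correlated pair. -/
theorem pair_int {n : ℕ} {v v' : Fin n → ℝ} (hv : ∑ i, v i ^ 2 = 1) (hv' : ∑ i, v' i ^ 2 = 1)
    {q : ℝ} (hq : ∑ i, v i * v' i = q) {F : ℝ → ℝ → ℝ} (hF : Measurable fun p : ℝ × ℝ => F p.1 p.2) :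
    |q| ≤ 1 ∧ ∫ g, F (∑ i, g i * v i) (∑ i, g i * v' i) ∂P166.gs n
      = ∫ p, F p.1 (q * p.1 + co q * p.2) ∂(g1.prod g1) := by
  have hq1 : |q| ≤ 1 := by
    have h := Finset.sum_mul_sq_le_sq_mul_sq Finset.univ v v'
    rw [hq, hv, hv', one_mul] at h
    exact abs_le_one_iff_mul_self_le_one.2 (by rw [← pow_two]; exact h)
  refine ⟨hq1, ?_⟩
  have hlaw := Weak.pair_law v v' ![1, 0] ![q, co q] (by simp [hv, Fin.sum_univ_two])
    (by simp [hv', Fin.sum_univ_two, co_sq hq1]) (by simp [hq, Fin.sum_univ_two])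
  have hG : Measurable fun z : EuclideanSpace ℝ (Fin 2) => F (z 0) (z 1) :=
    hF.comp (show Measurable fun z : EuclideanSpace ℝ (Fin 2) => (z 0, z 1) by fun_prop)
  have h := congrArg (fun m : Measure (EuclideanSpace ℝ (Fin 2)) => ∫ z, F (z 0) (z 1) ∂m) hlaw
  simp only [] at h
  rw [integral_map (Weak.measurable_pair v v').aemeasurable hG.aestronglyMeasurable,
    integral_map (Weak.measurable_pair _ _).aemeasurable hG.aestronglyMeasurable] at h
  have hmp : MeasurePreserving (MeasurableEquiv.finTwoArrow (α := ℝ)) (P166.gs 2) (g1.prod g1) :=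
    measurePreserving_finTwoArrow g1
  rw [← hmp.integral_comp' (g := fun p : ℝ × ℝ => F p.1 (q * p.1 + co q * p.2))]
  simpa [Weak.pair, Fin.sum_univ_two, mul_comm] using h

theorem int_prod {f h : ℝ → ℝ} (hf : Nice f) (hh : Nice h) {q : ℝ} (hq : |q| ≤ 1) :
    Integrable (fun p : ℝ × ℝ => f p.1 * h (q * p.1 + co q * p.2)) (g1.prod g1) := by
  obtain ⟨C, hC0, hC⟩ := hf.bound
  obtain ⟨D, hD0, hD⟩ := hh.bound
  have hi := ((int_exp (c := 1 / 10) (by norm_num)).mul_prod
    (int_exp (c := 1 / 20) (by norm_num))).const_mul (C * D)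
  refine hi.mono' ((hf.1.comp measurable_fst).mul (hh.1.comp (by fun_prop))).aestronglyMeasurable
    (ae_of_all _ fun p => ?_)
  rw [Real.norm_eq_abs, abs_mul]
  refine (mul_le_mul (hC _) (hD _) (abs_nonneg _) (by positivity)).trans ?_
  rw [mul_mul_mul_comm, ← Real.exp_add, ← Real.exp_add]
  refine mul_le_mul_of_nonneg_left (Real.exp_le_exp.2 ?_) (by positivity)
  linarith [lin_sq_le (x := p.1) (y := p.2) (co_sq hq)]

theorem ou_mul {f h : ℝ → ℝ} (hf : Nice f) (hh : Nice h) {q : ℝ} (hq : |q| ≤ 1) :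
    Integrable (fun x => f x * ou h q x) g1 ∧
      ∫ p, f p.1 * h (q * p.1 + co q * p.2) ∂(g1.prod g1) = ∫ x, f x * ou h q x ∂g1 := by
  have hi := int_prod hf hh hq
  have e : ∀ x, ∫ y, f x * h (q * x + co q * y) ∂g1 = f x * ou h q x := fun x => integral_const_mul _ _
  exact ⟨by simpa only [e] using hi.integral_prod_left, by rw [integral_prod _ hi]; simp only [e]⟩

theorem nice_const (c : ℝ) : Nice fun _ => c :=
  ⟨measurable_const, |c|, fun x =>
    le_mul_of_one_le_right (abs_nonneg c) (Real.one_le_exp (by positivity))⟩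

theorem ou_swap {f h : ℝ → ℝ} (hf : Nice f) (hh : Nice h) {q : ℝ} (hq : |q| ≤ 1) :
    ∫ x, f x * ou h q x ∂g1 = ∫ x, h x * ou f q x ∂g1 := by
  rw [← (ou_mul hf hh hq).2, ← (ou_mul hh hf hq).2]
  set v : Fin 2 → ℝ := ![1, 0]
  set w : Fin 2 → ℝ := ![q, co q]
  have hv : ∑ i, v i ^ 2 = 1 := by simp [v, Fin.sum_univ_two]
  have hw : ∑ i, w i ^ 2 = 1 := by simp [w, Fin.sum_univ_two, co_sq hq]
  have m1 : Measurable fun p : ℝ × ℝ => f p.1 * h p.2 :=
    (hf.1.comp measurable_fst).mul (hh.1.comp measurable_snd)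
  have m2 : Measurable fun p : ℝ × ℝ => h p.1 * f p.2 :=
    (hh.1.comp measurable_fst).mul (hf.1.comp measurable_snd)
  rw [← (pair_int hw hv (q := q) (by simp [v, w, Fin.sum_univ_two]) (F := fun a b => f a * h b) m1).2,
    ← (pair_int hv hw (q := q) (by simp [v, w, Fin.sum_univ_two]) (F := fun a b => h a * f b) m2).2]
  exact integral_congr_ae (ae_of_all _ fun g => mul_comm _ _)

theorem ou_const (c q x : ℝ) : ou (fun _ => c) q x = c := by simp [ou]

/-- Composition of two conditional expectations. -/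
theorem ou_sq {f : ℝ → ℝ} (hf : Nice f) {q : ℝ} (hq : |q| ≤ 1) :
    Integrable (fun x => ou f q x ^ 2) g1 ∧ ∫ x, ou f q x ^ 2 ∂g1 = ∫ x, f x * ou f (q ^ 2) x ∂g1 := by
  have hq2 : |q ^ 2| ≤ 1 := by rw [abs_pow]; exact pow_le_one₀ (abs_nonneg q) hq
  set s := co q
  set v : Fin 3 → ℝ := ![q, s, 0]
  set w : Fin 3 → ℝ := ![q, 0, s]
  have hv : ∑ i, v i ^ 2 = 1 := by simp [v, Fin.sum_univ_three, s, co_sq hq]
  have hw : ∑ i, w i ^ 2 = 1 := by simp [w, Fin.sum_univ_three, s, co_sq hq]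
  set T : ℝ × ℝ × ℝ → ℝ := fun p => f (q * p.1 + s * p.2.1) * f (q * p.1 + s * p.2.2)
  obtain ⟨C, hC0, hC⟩ := hf.bound
  have hTm : Measurable T := (hf.1.comp (by fun_prop)).mul (hf.1.comp (by fun_prop))
  have hi : Integrable T (g1.prod (g1.prod g1)) := by
    have h2 := (int_exp (c := 1 / 20) (by norm_num)).mul_prod (int_exp (c := 1 / 20) (by norm_num))
    refine (((int_exp (c := 1 / 10) (by norm_num)).mul_prod h2).const_mul (C * C)).mono'
      hTm.aestronglyMeasurable (ae_of_all _ fun p => ?_)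
    rw [Real.norm_eq_abs, abs_mul]
    refine (mul_le_mul (hC _) (hC _) (abs_nonneg _) (by positivity)).trans ?_
    rw [mul_mul_mul_comm, ← Real.exp_add, ← Real.exp_add, ← Real.exp_add]
    refine mul_le_mul_of_nonneg_left (Real.exp_le_exp.2 ?_) (by positivity)
    linarith [lin_sq_le (x := p.1) (y := p.2.1) (co_sq hq), lin_sq_le (x := p.1) (y := p.2.2) (co_sq hq)]
  have e : ∀ x, ∫ p : ℝ × ℝ, T (x, p) ∂(g1.prod g1) = ou f q x ^ 2 := fun x => by
    simp only [T, ou, s, pow_two]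
    exact integral_prod_mul (fun a => f (q * x + co q * a)) (fun b => f (q * x + co q * b))
  refine ⟨by simpa only [e] using hi.integral_prod_left, ?_⟩
  rw [show ∫ x, ou f q x ^ 2 ∂g1 = ∫ p, T p ∂(g1.prod (g1.prod g1)) by
    rw [integral_prod _ hi]; simp only [e]]
  rw [← (ou_mul hf hf hq2).2, ← (pair_int hv hw (q := q ^ 2)
    (by simp [v, w, Fin.sum_univ_three, pow_two]) (F := fun a b => f a * f b)
    ((hf.1.comp measurable_fst).mul (hf.1.comp measurable_snd))).2]
  have hmp : MeasurePreserving ((MeasurableEquiv.piFinSuccAbove (fun _ : Fin 3 => ℝ) 0).trans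
      (MeasurableEquiv.prodCongr (MeasurableEquiv.refl ℝ) MeasurableEquiv.finTwoArrow))
      (P166.gs 3) (g1.prod (g1.prod g1)) :=
    ((MeasurePreserving.id g1).prod (measurePreserving_finTwoArrow g1)).comp
      (measurePreserving_piFinSuccAbove (fun _ : Fin 3 => g1) 0)
  rw [← hmp.integral_comp']
  refine integral_congr_ae (ae_of_all _ fun g => ?_)
  simp [T, v, w, Fin.sum_univ_three, MeasurableEquiv.piFinSuccAbove, Fin.insertNthEquiv, mul_comm,
    MeasurableEquiv.finTwoArrow, MeasurableEquiv.prodCongr, MeasurableEquiv.piFinTwo, Fin.tail]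

theorem cosh_tail (t : ℝ) :
    0 ≤ Real.cosh t - 1 - t ^ 2 / 2 ∧ Real.cosh t - 1 - t ^ 2 / 2 ≤ t ^ 4 * Real.cosh t := by
  have h := Real.hasSum_cosh t
  have h2 := (hasSum_nat_add_iff' (f := fun n : ℕ => t ^ (2 * n) / ((2 * n).factorial : ℝ)) 2).2 h
  rw [Finset.sum_range_succ, Finset.sum_range_one] at h2
  simp only [mul_zero, pow_zero, Nat.factorial_zero, Nat.cast_one, div_one, mul_one,
    Nat.factorial_two, Nat.cast_two] at h2
  have he : ∀ n : ℕ, t ^ (2 * n) = (t ^ 2) ^ n := fun n => by rw [pow_mul]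
  refine ⟨?_, ?_⟩
  · have := h2.nonneg fun n => by rw [he]; positivity
    linarith
  · refine le_trans (le_of_eq (sub_sub _ _ _)) (hasSum_le (fun n => ?_) h2 (h.mul_left (t ^ 4)))
    rw [show 2 * (n + 2) = 2 * n + 4 by ring, pow_add, mul_comm (t ^ (2 * n)), ← mul_div_assoc]
    refine div_le_div_of_nonneg_left (by rw [he]; positivity) (by positivity) ?_
    exact_mod_cast Nat.factorial_le (by omega)

/-- Density of the shifted Gaussian against the standard one. -/
theorem ou_kernel (f : ℝ → ℝ) (hf : Measurable f) {q : ℝ} (hs : 0 < co q) (x : ℝ) :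
    ou f q x = ∫ z, f z * ((co q)⁻¹
      * Real.exp (-(q ^ 2 * z ^ 2 - 2 * q * x * z + q ^ 2 * x ^ 2) / (2 * co q ^ 2))) ∂g1 := by
  have hq : |q| ≤ 1 := by
    by_contra h
    push Not at h
    have : co q = 0 := Real.sqrt_eq_zero'.2 (by nlinarith [sq_abs q, abs_nonneg q])
    linarith
  set s := co q with hsdef
  have hm : Measure.map (fun y => q * x + s * y) g1
      = gaussianReal (q * x) (NNReal.mk (s ^ 2) (sq_nonneg s)) := by
    rw [show (fun y => q * x + s * y) = (fun y => q * x + y) ∘ fun y => s * y from rfl,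
      ← Measure.map_map (by fun_prop) (by fun_prop), gaussianReal_map_const_mul,
      gaussianReal_map_const_add, mul_zero, zero_add, mul_one]
  have hv : NNReal.mk (s ^ 2) (sq_nonneg s) ≠ 0 := fun h => by
    have := congrArg NNReal.toReal h
    simp at this
    exact hs.ne' this
  rw [ou, ← integral_map (by fun_prop) hf.aestronglyMeasurable, hm,
    integral_gaussianReal_eq_integral_smul hv, integral_gaussianReal_eq_integral_smul one_ne_zero]
  refine integral_congr_ae (ae_of_all _ fun z => ?_)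
  have hsq : q ^ 2 + s ^ 2 = 1 := co_sq hq
  simp only [smul_eq_mul, gaussianPDFReal_def, NNReal.coe_mk, NNReal.coe_one, mul_one, sub_zero]
  rw [show √(2 * Real.pi * s ^ 2) = √(2 * Real.pi) * s by
    rw [Real.sqrt_mul (by positivity), Real.sqrt_sq hs.le]]
  rw [show Real.exp (-(z - q * x) ^ 2 / (2 * s ^ 2)) = Real.exp (-z ^ 2 / 2)
      * Real.exp (-(q ^ 2 * z ^ 2 - 2 * q * x * z + q ^ 2 * x ^ 2) / (2 * s ^ 2)) by
    rw [← Real.exp_add]
    congr 1
    field_simp
    linear_combination (z ^ 2) * hsq]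
  field_simp

/-- Expansion of the symmetrised kernel to second order. -/
theorem kernel_bound {q a b x z : ℝ} (hq0 : 0 ≤ q) (hq : q ≤ 1 / 8) (ha0 : 0 ≤ a) (ha : a ≤ 8 / 7 * q)
    (hb0 : 0 ≤ b) (hb : b ≤ q ^ 2) :
    |Real.exp (-(b * z ^ 2)) * Real.cosh (a * x * z) - (1 + ((a * x) ^ 2 / 2 - b) * z ^ 2)|
      ≤ q ^ 4 * (8 * (1 + x ^ 2) ^ 2 * (1 + z ^ 2) ^ 3) * Real.exp (x ^ 2 / 14 + z ^ 2 / 14) := by
  set w := b * z ^ 2
  set t := a * x * z
  have hw0 : 0 ≤ w := by positivity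
  have hch : Real.cosh t ≤ Real.exp (x ^ 2 / 14 + z ^ 2 / 14) := by
    have h1 : |t| ≤ x ^ 2 / 14 + z ^ 2 / 14 := by
      simp only [t, abs_mul, abs_of_nonneg ha0]
      have : a ≤ 1 / 7 := by linarith
      have h2 := mul_le_mul_of_nonneg_right this (mul_nonneg (abs_nonneg x) (abs_nonneg z))
      have h3 := two_mul_le_add_sq |x| |z|
      rw [sq_abs, sq_abs] at h3
      linarith
    have := Real.exp_le_exp.2 ((le_abs_self t).trans h1)
    have := Real.exp_le_exp.2 ((neg_le_abs t).trans h1)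
    rw [Real.cosh_eq]; linarith
  have hE : 1 ≤ Real.exp (x ^ 2 / 14 + z ^ 2 / 14) := Real.one_le_exp (by positivity)
  have hc1 : 1 ≤ Real.cosh t := Real.one_le_cosh t
  obtain ⟨c0, c4⟩ := cosh_tail t
  have e0 : 0 ≤ Real.exp (-w) - 1 + w := by linarith [Real.add_one_le_exp (-w)]
  have e2 : Real.exp (-w) - 1 + w ≤ w ^ 2 := by
    have h1 : Real.exp (-w) * (1 + w) ≤ 1 := by
      calc Real.exp (-w) * (1 + w) ≤ Real.exp (-w) * Real.exp w :=
            mul_le_mul_of_nonneg_left (by linarith [Real.add_one_le_exp w]) (Real.exp_pos _).le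
        _ = 1 := by rw [← Real.exp_add, neg_add_cancel, Real.exp_zero]
    rcases le_total w 1 with hw | hw
    · have h5 : Real.exp (-w) ≤ 1 / (1 + w) := by rw [le_div_iff₀ (by linarith)]; exact h1
      have h6 : 1 / (1 + w) ≤ 1 - w + w ^ 2 := by
        rw [div_le_iff₀ (by linarith)]; nlinarith [pow_nonneg hw0 3]
      linarith
    · have : Real.exp (-w) ≤ 1 := Real.exp_le_one_iff.2 (by linarith)
      have : w * 1 ≤ w * w := mul_le_mul_of_nonneg_left hw hw0
      rw [pow_two]; linarith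
  have hdec : Real.exp (-(b * z ^ 2)) * Real.cosh (a * x * z) - (1 + ((a * x) ^ 2 / 2 - b) * z ^ 2) = (Real.exp (-w) - 1 + w) * Real.cosh t
      + (1 - w) * (Real.cosh t - 1 - t ^ 2 / 2) - w * (t ^ 2 / 2) := by
    simp only [w, t]; ring
  have hbd : |Real.exp (-(b * z ^ 2)) * Real.cosh (a * x * z) - (1 + ((a * x) ^ 2 / 2 - b) * z ^ 2)| ≤ (w ^ 2 + (1 + w) * t ^ 4 + w * t ^ 2)
      * Real.exp (x ^ 2 / 14 + z ^ 2 / 14) := by
    set E := Real.exp (x ^ 2 / 14 + z ^ 2 / 14)
    have k1 : (Real.exp (-w) - 1 + w) * Real.cosh t ≤ w ^ 2 * E :=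
      mul_le_mul e2 hch (by linarith) (by positivity)
    have k2 : |(1 - w) * (Real.cosh t - 1 - t ^ 2 / 2)| ≤ (1 + w) * t ^ 4 * E := by
      rw [abs_mul, abs_of_nonneg c0, mul_assoc]
      exact mul_le_mul (abs_le.2 ⟨by linarith, by linarith⟩)
        (c4.trans (mul_le_mul_of_nonneg_left hch (by positivity))) c0 (by positivity)
    have k3 : w * (t ^ 2 / 2) ≤ w * t ^ 2 * E := by
      calc w * (t ^ 2 / 2) ≤ w * t ^ 2 * 1 := by nlinarith [mul_nonneg hw0 (sq_nonneg t)]
        _ ≤ _ := mul_le_mul_of_nonneg_left hE (by positivity)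
    have k4 : 0 ≤ w * (t ^ 2 / 2) := by positivity
    have k5 : 0 ≤ (Real.exp (-w) - 1 + w) * Real.cosh t := mul_nonneg e0 (by linarith)
    rw [hdec, abs_le]
    obtain ⟨k2a, k2b⟩ := abs_le.1 k2
    have k6 : 0 ≤ (1 + w) * t ^ 4 * E := by positivity
    have k7 : 0 ≤ w ^ 2 * E := by positivity
    have k8 : 0 ≤ w * t ^ 2 * E := by positivity
    rw [add_mul, add_mul]
    constructor <;> linarith
  refine hbd.trans (mul_le_mul_of_nonneg_right ?_ (Real.exp_pos _).le)
  have hX : (1 : ℝ) ≤ 1 + x ^ 2 := by nlinarith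
  have hZ : (1 : ℝ) ≤ 1 + z ^ 2 := by nlinarith
  have hwq : w ≤ q ^ 2 * (1 + z ^ 2) :=
    mul_le_mul hb (by linarith) (sq_nonneg z) (sq_nonneg q)
  have htq : t ^ 2 ≤ 2 * q ^ 2 * ((1 + x ^ 2) * (1 + z ^ 2)) := by
    have : a ^ 2 ≤ 2 * q ^ 2 := by nlinarith
    calc t ^ 2 = a ^ 2 * (x ^ 2 * z ^ 2) := by simp only [t]; ring
      _ ≤ _ := mul_le_mul this (mul_le_mul (by linarith) (by linarith) (sq_nonneg z) (by positivity))
        (by positivity) (by positivity)
  set X := 1 + x ^ 2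
  set Z := 1 + z ^ 2
  have hw1 : 1 + w ≤ Z := by
    have h1 : w ≤ 1 * z ^ 2 := mul_le_mul_of_nonneg_right (hb.trans (pow_le_one₀ hq0 (by linarith))) (sq_nonneg z)
    simp only [Z]; linarith
  have hXX : 1 ≤ X ^ 2 := by nlinarith
  have hXl : X ≤ X ^ 2 := by nlinarith
  have hZ2 : Z ^ 2 ≤ Z ^ 3 := pow_le_pow_right₀ hZ (by norm_num)
  have l1 : w ^ 2 ≤ q ^ 4 * (X ^ 2 * Z ^ 3) := by
    calc w ^ 2 ≤ (q ^ 2 * Z) ^ 2 := pow_le_pow_left₀ hw0 hwq 2
      _ = q ^ 4 * (1 * Z ^ 2) := by ring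
      _ ≤ _ := by gcongr
  have l2 : (1 + w) * t ^ 4 ≤ 4 * q ^ 4 * (X ^ 2 * Z ^ 3) := by
    calc (1 + w) * t ^ 4 = (1 + w) * (t ^ 2) ^ 2 := by ring
      _ ≤ Z * (2 * q ^ 2 * (X * Z)) ^ 2 := by gcongr
      _ = _ := by ring
  have l3 : w * t ^ 2 ≤ 2 * q ^ 4 * (X ^ 2 * Z ^ 3) := by
    calc w * t ^ 2 ≤ q ^ 2 * Z * (2 * q ^ 2 * (X * Z)) := by gcongr
      _ = 2 * q ^ 4 * (X * Z ^ 2) := by ring
      _ ≤ _ := by gcongr
  have : 0 ≤ q ^ 4 * (X ^ 2 * Z ^ 3) := by positivity
  linarith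

/-- Orthogonality to the constants and to the square, and evenness, give fourth order decay. -/
theorem ou_small {r : ℝ → ℝ} (hr : Nice r) (heven : ∀ x, r (-x) = r x) (h0 : ∫ x, r x ∂g1 = 0)
    (h2 : ∫ x, r x * x ^ 2 ∂g1 = 0) :
    ∃ K, ∀ q x, 0 ≤ q → q ≤ 1 / 8 → |ou r q x| ≤ K * q ^ 4 * Real.exp (9 / 70 * x ^ 2) := by
  obtain ⟨C, hC0, hC⟩ := hr.bound
  set B := ∫ z, Real.exp (1 / 5 * z ^ 2) ∂g1
  set K₀ := (40 : ℝ) ^ 2 * 40 ^ 3 * C * 8
  refine ⟨2 * (K₀ * B), fun q x hq0 hq => ?_⟩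
  have hq1 : |q| ≤ 1 := by rw [abs_of_nonneg hq0]; linarith
  have hsq := co_sq hq1
  have hs0 : 0 < co q := Real.sqrt_pos.2 (by nlinarith)
  set s := co q
  have hs2 : 63 / 64 ≤ s ^ 2 := by nlinarith
  have hsinv : s⁻¹ ≤ 2 := by
    rw [inv_le_comm₀ hs0 two_pos]; nlinarith
  set a := q / s ^ 2
  set b := q ^ 2 / (2 * s ^ 2)
  have ha0 : 0 ≤ a := by positivity
  have ha : a ≤ 8 / 7 * q := by
    simp only [a]; rw [div_le_iff₀ (by positivity)]; nlinarith
  have hb0 : 0 ≤ b := by positivity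
  have hb : b ≤ q ^ 2 := by
    simp only [b]; rw [div_le_iff₀ (by positivity)]; nlinarith [sq_nonneg q]
  set W : ℝ → ℝ := fun z => Real.exp (-(b * z ^ 2)) * Real.cosh (a * x * z)
  set P : ℝ → ℝ := fun z => 1 + ((a * x) ^ 2 / 2 - b) * z ^ 2
  have hW : ∀ z, |W z - P z| ≤ q ^ 4 * (8 * (1 + x ^ 2) ^ 2 * (1 + z ^ 2) ^ 3)
      * Real.exp (x ^ 2 / 14 + z ^ 2 / 14) := fun z => kernel_bound hq0 hq ha0 ha hb0 hb
  set E := fun z : ℝ => q ^ 4 * (K₀ * Real.exp (9 / 70 * x ^ 2) * Real.exp (1 / 5 * z ^ 2))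
  have iE : Integrable E g1 := ((int_exp (by norm_num)).const_mul _).const_mul _
  have hrW : ∀ z, |r z * (W z - P z)| ≤ E z := fun z => by
    rw [abs_mul]
    refine (mul_le_mul (hC z) (hW z) (abs_nonneg _) (by positivity)).trans ?_
    have hx2 : (1 + x ^ 2) ^ 2 ≤ 40 ^ 2 * Real.exp (x ^ 2 / 20) := by
      refine (pow_le_pow_left₀ (by positivity) (one_add_le (x ^ 2)) 2).trans_eq ?_
      rw [mul_pow, ← Real.exp_nat_mul]; congr 2; push_cast; ring
    have hz3 : (1 + z ^ 2) ^ 3 ≤ 40 ^ 3 * Real.exp (3 * z ^ 2 / 40) := by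
      refine (pow_le_pow_left₀ (by positivity) (one_add_le (z ^ 2)) 3).trans_eq ?_
      rw [mul_pow, ← Real.exp_nat_mul]; congr 2; push_cast; ring
    calc C * Real.exp (z ^ 2 / 20) * (q ^ 4 * (8 * (1 + x ^ 2) ^ 2 * (1 + z ^ 2) ^ 3)
          * Real.exp (x ^ 2 / 14 + z ^ 2 / 14))
        ≤ C * Real.exp (z ^ 2 / 20) * (q ^ 4 * (8 * (40 ^ 2 * Real.exp (x ^ 2 / 20))
            * (40 ^ 3 * Real.exp (3 * z ^ 2 / 40))) * Real.exp (x ^ 2 / 14 + z ^ 2 / 14)) := by gcongr
      _ = q ^ 4 * (K₀ * Real.exp (x ^ 2 / 20 + x ^ 2 / 14)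
            * Real.exp (z ^ 2 / 20 + 3 * z ^ 2 / 40 + z ^ 2 / 14)) := by
          simp only [K₀, Real.exp_add]; ring
      _ ≤ _ := by
          simp only [E]
          gcongr <;> nlinarith [sq_nonneg x, sq_nonneg z]
  have hmW : Measurable W := by fun_prop
  have hmP : Measurable P := by fun_prop
  have irD : Integrable (fun z => r z * (W z - P z)) g1 :=
    iE.mono' (hr.1.mul (hmW.sub hmP)).aestronglyMeasurable (ae_of_all _ hrW)
  have ir2 : Integrable (fun z => r z * z ^ 2) g1 := by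
    refine hr.integrable_mul ⟨by fun_prop, 40, fun z => ?_⟩
    rw [abs_of_nonneg (sq_nonneg z)]
    have := one_add_le (z ^ 2)
    have : Real.exp (z ^ 2 / 40) ≤ Real.exp (z ^ 2 / 20) :=
      Real.exp_le_exp.2 (by linarith [sq_nonneg z])
    linarith
  have irP : Integrable (fun z => r z * P z) g1 := by
    simp only [P, mul_add, mul_one]
    exact hr.integrable.fun_add ((ir2.const_mul ((a * x) ^ 2 / 2 - b)).congr
      (ae_of_all _ fun z => by ring))
  have hP0 : ∫ z, r z * P z ∂g1 = 0 := by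
    have e : ∀ z, r z * P z = r z + ((a * x) ^ 2 / 2 - b) * (r z * z ^ 2) := fun z => by
      simp only [P]; ring
    simp only [e]
    rw [integral_add hr.integrable (ir2.const_mul _), integral_const_mul, h0, h2]; ring
  have irW : Integrable (fun z => r z * W z) g1 :=
    (irD.fun_add irP).congr (ae_of_all _ fun z => by ring)
  have hW0 : |∫ z, r z * W z ∂g1| ≤ q ^ 4 * (K₀ * Real.exp (9 / 70 * x ^ 2) * B) := by
    have e : ∫ z, r z * W z ∂g1 = ∫ z, r z * (W z - P z) ∂g1 := by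
      simp only [mul_sub]; rw [integral_sub irW irP, hP0, sub_zero]
    rw [e, ← Real.norm_eq_abs]
    refine (norm_integral_le_of_norm_le iE (ae_of_all _ hrW)).trans_eq ?_
    simp only [E, integral_const_mul, B]
  set Kf : ℝ → ℝ := fun z =>
    s⁻¹ * Real.exp (-(q ^ 2 * z ^ 2 - 2 * q * x * z + q ^ 2 * x ^ 2) / (2 * s ^ 2))
  have hsym : ∀ z, r z * Kf z + r (-z) * Kf (-z)
      = 2 * (s⁻¹ * Real.exp (-(b * x ^ 2))) * (r z * W z) := fun z => by
    have hK : ∀ y, Kf y = s⁻¹ * (Real.exp (-(b * x ^ 2)) * Real.exp (-(b * y ^ 2))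
        * Real.exp (a * x * y)) := fun y => by
      simp only [Kf, a, b, ← Real.exp_add]
      congr 2
      field_simp
      ring
    rw [heven, hK, hK, show W z = Real.exp (-(b * z ^ 2)) * Real.cosh (a * x * z) from rfl,
      Real.cosh_eq, neg_sq, mul_neg]
    ring
  have hbx : Real.exp (-(b * x ^ 2)) ≤ 1 := Real.exp_le_one_iff.2 (by nlinarith [sq_nonneg x])
  have hint : Integrable (fun z => r z * Kf z) g1 := by
    refine ((irW.norm.const_mul (2 * (s⁻¹ * Real.exp (-(b * x ^ 2)))))).mono'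
      (hr.1.mul (by fun_prop)).aestronglyMeasurable (ae_of_all _ fun z => ?_)
    have hp : ∀ y, 0 ≤ Kf y := fun y => by positivity
    have h := congrArg abs (hsym z)
    rw [heven, ← mul_add, abs_mul, abs_of_nonneg (add_nonneg (hp _) (hp _)), abs_mul,
      abs_of_nonneg (show 0 ≤ 2 * (s⁻¹ * Real.exp (-(b * x ^ 2))) by positivity)] at h
    rw [Real.norm_eq_abs, Real.norm_eq_abs, ← h, abs_mul, abs_of_nonneg (hp _)]
    exact mul_le_mul_of_nonneg_left (le_add_of_nonneg_right (hp _)) (abs_nonneg _)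
  have hneg : MeasurePreserving (fun z : ℝ => -z) g1 g1 :=
    ⟨measurable_neg, by rw [gaussianReal_map_neg, neg_zero]⟩
  have hrev : ∫ z, r (-z) * Kf (-z) ∂g1 = ∫ z, r z * Kf z ∂g1 :=
    hneg.integral_comp (Homeomorph.neg ℝ).measurableEmbedding (fun z => r z * Kf z)
  have hker : ou r q x = s⁻¹ * Real.exp (-(b * x ^ 2)) * ∫ z, r z * W z ∂g1 := by
    have h := integral_congr_ae (μ := g1) (ae_of_all _ hsym)
    have hint' : Integrable (fun z => r (-z) * Kf (-z)) g1 := hneg.integrable_comp_of_integrable hint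
    rw [integral_add hint hint', hrev, integral_const_mul] at h
    rw [ou_kernel r hr.1 hs0 x]
    linarith
  have hB0 : 0 ≤ B := integral_nonneg fun z => (Real.exp_pos _).le
  rw [hker, abs_mul, abs_of_nonneg (by positivity)]
  refine (mul_le_mul (mul_le_mul hsinv hbx (Real.exp_pos _).le zero_le_two) hW0 (abs_nonneg _)
    (by norm_num)).trans_eq ?_
  ring

/-- Even functions orthogonal to the constants and the square lose four powers of the correlation. -/
theorem ou_decay {r : ℝ → ℝ} (hr : Nice r) (heven : ∀ x, r (-x) = r x) (h0 : ∫ x, r x ∂g1 = 0)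
    (h2 : ∫ x, r x * x ^ 2 ∂g1 = 0) {q : ℝ} (hq : |q| ≤ 1) :
    ∫ x, r x * ou r q x ∂g1 ≤ q ^ 4 * ∫ x, r x ^ 2 ∂g1 := by
  wlog hq0 : 0 ≤ q generalizing q
  · have h := this (q := -q) (by rwa [abs_neg]) (by linarith)
    have e : ∀ x, ou r (-q) x = ou r q x := fun x => by
      have hneg : MeasurePreserving (fun z : ℝ => -z) g1 g1 :=
        ⟨measurable_neg, by rw [gaussianReal_map_neg, neg_zero]⟩
      rw [ou, ← hneg.integral_comp (Homeomorph.neg ℝ).measurableEmbedding]
      refine integral_congr_ae (ae_of_all _ fun y => ?_)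
      simp only [co, neg_sq]
      rw [show -q * x + √(1 - q ^ 2) * -y = -(q * x + √(1 - q ^ 2) * y) by ring, heven]
    simp only [e, Even.neg_pow (show Even 4 by decide)] at h
    exact h
  set R := ∫ x, r x ^ 2 ∂g1
  set G : ℝ → ℝ := fun t => ∫ x, r x * ou r t x ∂g1
  have iR : Integrable (fun x => r x ^ 2) g1 := by simpa only [pow_two] using hr.integrable_mul hr
  have hR : 0 ≤ R := integral_nonneg fun x => sq_nonneg _
  have habs : ∀ t : ℝ, 0 ≤ t → t ≤ 1 → |t| ≤ 1 := fun t h h' => by rwa [abs_of_nonneg h]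
  -- Cauchy-Schwarz
  have hcs : ∀ t, 0 ≤ t → t ≤ 1 → G t ^ 2 ≤ R * G (t ^ 2) := fun t h h' => by
    obtain ⟨i1, e1⟩ := ou_sq hr (habs t h h')
    obtain ⟨i2, -⟩ := ou_mul hr hr (habs t h h')
    have key : ∀ d : ℝ, 0 ≤ R * (d * d) + 2 * G t * d + G (t ^ 2) := fun d => by
      have h' : 0 ≤ ∫ x, (d * r x + ou r t x) ^ 2 ∂g1 := integral_nonneg fun x => sq_nonneg _
      have e : ∀ x, (d * r x + ou r t x) ^ 2
          = d * d * r x ^ 2 + (2 * d * (r x * ou r t x) + ou r t x ^ 2) := fun x => by ring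
      simp only [e] at h'
      rw [integral_add (iR.const_mul _) ((i2.const_mul _).fun_add i1), integral_add (i2.const_mul _) i1,
        integral_const_mul, integral_const_mul, e1] at h'
      simp only [G, R]
      linarith
    have := discrim_le_zero key
    rw [discrim] at this
    nlinarith
  obtain ⟨K, hK⟩ := ou_small hr heven h0 h2
  set C := K ^ 2 * ∫ x, Real.exp (9 / 35 * x ^ 2) ∂g1
  have hsmall : ∀ t, 0 ≤ t → t ≤ 1 / 64 → G t ≤ C * t ^ 4 := fun t h h' => by
    have hu : √t ≤ 1 / 8 := Real.sqrt_le_iff.2 ⟨by norm_num, by linarith⟩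
    obtain ⟨i1, e1⟩ := ou_sq hr (habs _ (Real.sqrt_nonneg t) (by linarith))
    rw [Real.sq_sqrt h] at e1
    simp only [G, ← e1]
    refine (integral_mono i1 (((int_exp (c := 9 / 35) (by norm_num))).const_mul (K ^ 2 * t ^ 4))
      fun x => ?_).trans_eq (by rw [integral_const_mul]; ring)
    refine (sq_abs _).symm.trans_le ((pow_le_pow_left₀ (abs_nonneg _) (hK _ x (Real.sqrt_nonneg t) hu) 2).trans_eq ?_)
    rw [mul_pow, mul_pow, ← Real.exp_nat_mul, ← pow_mul, show 4 * 2 = 2 * 4 by rfl, pow_mul √t,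
      Real.sq_sqrt h]
    push_cast; ring_nf
  rcases eq_or_lt_of_le ((abs_le.1 hq).2) with rfl | hq1
  · simp [co, ou, R, pow_two]
  by_contra hlt
  push Not at hlt
  rcases hq0.eq_or_lt with rfl | hpos
  · have := hsmall 0 le_rfl (by norm_num)
    simp [G] at this hlt
    linarith
  have hRpos : 0 < R := by
    rcases hR.eq_or_lt with h | h
    · have h' := hcs q hpos.le hq1.le
      rw [← h, zero_mul] at h'
      rw [← h, mul_zero] at hlt
      simp only [G] at h'
      nlinarith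
    · exact h
  set ρ := G q / (q ^ 4 * R)
  have hρ : 1 < ρ := by
    rw [one_lt_div (by positivity)]; exact hlt
  have hit : ∀ n : ℕ, ρ ^ 2 ^ n * (R * (q ^ 2 ^ n) ^ 4) ≤ G (q ^ 2 ^ n) := fun n => by
    induction n with
    | zero => simp only [pow_zero, pow_one, ρ]; exact le_of_eq (by field_simp)
    | succ n ih =>
      have hn := hcs (q ^ 2 ^ n) (by positivity) (pow_le_one₀ hpos.le hq1.le)
      have hsq := pow_le_pow_left₀ (by positivity) ih 2
      rw [pow_succ, pow_mul, pow_mul]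
      refine le_of_mul_le_mul_left ?_ hRpos
      exact (le_of_eq (by ring)).trans (hsq.trans hn)
  have hq' : Tendsto (fun n : ℕ => q ^ 2 ^ n) atTop (𝓝 0) :=
    (tendsto_pow_atTop_nhds_zero_of_lt_one hpos.le hq1).comp
      (tendsto_pow_atTop_atTop_of_one_lt (by norm_num))
  have hρ' : Tendsto (fun n : ℕ => ρ ^ 2 ^ n * R) atTop atTop :=
    ((tendsto_pow_atTop_atTop_of_one_lt hρ).comp
      (tendsto_pow_atTop_atTop_of_one_lt (by norm_num))).atTop_mul_const hRpos
  obtain ⟨n, hn1, hn2⟩ := ((hq'.eventually (eventually_le_nhds (show (0 : ℝ) < 1 / 64 by norm_num))).and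
    (hρ'.eventually_gt_atTop C)).exists
  have h4 : (0 : ℝ) < (q ^ 2 ^ n) ^ 4 := by positivity
  have := (hit n).trans (hsmall _ (by positivity) hn1)
  rw [← mul_assoc] at this
  exact absurd (le_of_mul_le_mul_right this h4) (not_le.2 hn2)

/-- The second-chaos polynomial. -/
def he2 (x : ℝ) : ℝ := x ^ 2 - 1

theorem nice_he2 : Nice he2 := by
  refine ⟨by unfold he2; fun_prop, 40, fun x => ?_⟩
  have := one_add_le (x ^ 2)
  have : Real.exp (x ^ 2 / 40) ≤ Real.exp (x ^ 2 / 20) := Real.exp_le_exp.2 (by linarith [sq_nonneg x])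
  simp only [he2]
  rw [abs_le]
  constructor <;> nlinarith [sq_nonneg x]

theorem moment2 : ∫ x, x ^ 2 ∂g1 = 1 := by simpa using P150.moment_step 0

theorem ou_he2 {q : ℝ} (hq : |q| ≤ 1) (x : ℝ) : ou he2 q x = q ^ 2 * he2 x := by
  have i2 : Integrable (fun y : ℝ => y ^ 2) g1 := by
    refine (nice_he2.integrable.fun_add (integrable_const (1 : ℝ))).congr (ae_of_all _ fun y => ?_)
    simp [he2]
  have i1 : Integrable (fun y : ℝ => y) g1 := (memLp_id_gaussianReal 1).integrable le_rfl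
  have h0 : ∫ y, y ∂g1 = 0 := integral_id_gaussianReal
  have e : ∀ y, he2 (q * x + co q * y)
      = (q ^ 2 * x ^ 2 - 1) + (2 * q * x * co q * y + co q ^ 2 * y ^ 2) := fun y => by
    simp only [he2]; ring
  simp only [ou, e]
  rw [integral_add (integrable_const _) ((i1.const_mul _).fun_add (i2.const_mul _)),
    integral_add (i1.const_mul _) (i2.const_mul _), integral_const_mul, integral_const_mul, h0, moment2]
  simp only [integral_const, probReal_univ, one_smul, he2]
  linear_combination co_sq hq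

theorem he2_sq : ∫ x, he2 x * he2 x ∂g1 = 2 := by
  have h4 : ∫ x, x ^ 4 ∂g1 = 3 := by
    have := P150.moment_step 2; norm_num [moment2] at this; exact this
  have i4 := P150.integrable_pow_gauss 4
  have i2 := P150.integrable_pow_gauss 2
  have e : ∀ x, he2 x * he2 x = x ^ 4 + (-2 * x ^ 2 + 1) := fun x => by simp only [he2]; ring
  simp only [e]
  rw [integral_add i4 ((i2.const_mul _).fun_add (integrable_const _)),
    integral_add (i2.const_mul _) (integrable_const _), integral_const_mul, h4, moment2]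
  norm_num

/-- Two-point bound: second chaos plus a fourth-order remainder. -/
theorem two_point {U : ℝ → ℝ} (hUm : Measurable U) {B : ℝ} (hUb : ∀ x, |U x| ≤ B)
    (heven : ∀ x, U (-x) = U x) {c d : ℝ} (hc : ∫ x, U x ∂g1 = c)
    (hd : ∫ x, he2 x * U x ∂g1 = d) {n : ℕ} {v v' : Fin n → ℝ} (hv : ∑ i, v i ^ 2 = 1)
    (hv' : ∑ i, v' i ^ 2 = 1) :
    ∫ g, U (∑ i, g i * v i) * U (∑ i, g i * v' i) ∂P166.gs n
      ≤ c ^ 2 + d ^ 2 / 2 * (∑ i, v i * v' i) ^ 2
        + ((∫ x, U x ^ 2 ∂g1) - c ^ 2 - d ^ 2 / 2) * (∑ i, v i * v' i) ^ 4 := by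
  set q := ∑ i, v i * v' i
  obtain ⟨hq, hpair⟩ := pair_int hv hv' rfl (F := fun a b => U a * U b)
    ((hUm.comp measurable_fst).mul (hUm.comp measurable_snd))
  have hU : Nice U := ⟨hUm, B, fun x => (hUb x).trans
    (le_mul_of_one_le_right ((abs_nonneg _).trans (hUb 0)) (Real.one_le_exp (by positivity)))⟩
  rw [hpair, (ou_mul hU hU hq).2]
  set r : ℝ → ℝ := fun x => U x - c - d / 2 * he2 x
  obtain ⟨H, hH0, hH⟩ := nice_he2.bound
  have hr : Nice r := by
    refine ⟨(hUm.sub_const c).sub (nice_he2.1.const_mul _), B + |c| + |d / 2| * H, fun x => ?_⟩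
    have h1 : (1 : ℝ) ≤ Real.exp (x ^ 2 / 20) := Real.one_le_exp (by positivity)
    calc |r x| ≤ |U x - c| + |d / 2 * he2 x| := abs_sub _ _
      _ ≤ |U x| + |c| + |d / 2| * |he2 x| := by rw [abs_mul]; linarith [abs_sub (U x) c]
      _ ≤ B * Real.exp (x ^ 2 / 20) + |c| * Real.exp (x ^ 2 / 20)
            + |d / 2| * (H * Real.exp (x ^ 2 / 20)) :=
          add_le_add (add_le_add ((hUb x).trans (le_mul_of_one_le_right ((abs_nonneg _).trans (hUb 0)) h1))
            (le_mul_of_one_le_right (abs_nonneg c) h1)) (mul_le_mul_of_nonneg_left (hH x) (abs_nonneg _))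
      _ = _ := by ring
  have hdec : ∀ x, U x = c + d / 2 * he2 x + r x := fun x => by simp only [r]; ring
  have hreven : ∀ x, r (-x) = r x := fun x => by simp only [r, he2, heven, neg_sq]
  have hH1 : ∫ x, he2 x ∂g1 = 0 := by
    have i2 : Integrable (fun y : ℝ => y ^ 2) g1 := by
      refine (nice_he2.integrable.fun_add (integrable_const (1 : ℝ))).congr (ae_of_all _ fun y => ?_)
      simp [he2]
    simp only [he2]
    rw [integral_sub i2 (integrable_const _), moment2]
    simp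
  have hr0 : ∫ x, r x ∂g1 = 0 := by
    simp only [r]
    rw [integral_sub (hU.integrable.sub' (integrable_const c)) (nice_he2.integrable.const_mul _),
      integral_sub hU.integrable (integrable_const c), integral_const_mul, hH1, hc]
    simp
  have hrH : ∫ x, he2 x * r x ∂g1 = 0 := by
    simp only [r, mul_sub]
    have i1 := nice_he2.integrable_mul hU
    have i2 : Integrable (fun x => he2 x * c) g1 := nice_he2.integrable.mul_const c
    have i3 : Integrable (fun x => he2 x * (d / 2 * he2 x)) g1 :=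
      ((nice_he2.integrable_mul nice_he2).const_mul (d / 2)).congr (ae_of_all _ fun x => by ring)
    rw [integral_sub (i1.sub' i2) i3, integral_sub i1 i2, integral_mul_const, hH1, hd,
      show (fun x => he2 x * (d / 2 * he2 x)) = fun x => d / 2 * (he2 x * he2 x) by funext x; ring,
      integral_const_mul, he2_sq]
    ring
  have hr2 : ∫ x, r x * x ^ 2 ∂g1 = 0 := by
    have e : ∀ x, r x * x ^ 2 = he2 x * r x + r x := fun x => by simp only [he2]; ring
    simp only [e]
    rw [integral_add (nice_he2.integrable_mul hr) hr.integrable, hrH, hr0, add_zero]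
  -- expansion
  have hcomb : ∀ h : ℝ → ℝ, Nice h → ∀ t : ℝ, |t| ≤ 1 →
      ∫ x, U x * ou h t x ∂g1 = c * ∫ x, h x ∂g1 + d / 2 * t ^ 2 * ∫ x, he2 x * h x ∂g1
        + ∫ x, r x * ou h t x ∂g1 := fun h hh t ht => by
    have hone : ∫ x, ou h t x ∂g1 = ∫ x, h x ∂g1 := by
      simpa [ou_const] using ou_swap (nice_const 1) hh ht
    have hhe : ∫ x, he2 x * ou h t x ∂g1 = t ^ 2 * ∫ x, he2 x * h x ∂g1 := by
      rw [ou_swap nice_he2 hh ht]
      simp only [ou_he2 ht]
      rw [← integral_const_mul]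
      exact integral_congr_ae (ae_of_all _ fun x => by ring)
    have i1 : Integrable (fun x => c * ou h t x) g1 := (ou_mul (nice_const c) hh ht).1
    have i2 : Integrable (fun x => d / 2 * (he2 x * ou h t x)) g1 := (ou_mul nice_he2 hh ht).1.const_mul _
    have i3 := (ou_mul hr hh ht).1
    have e : ∀ x, U x * ou h t x = c * ou h t x + d / 2 * (he2 x * ou h t x) + r x * ou h t x := fun x => by
      rw [hdec x]; ring
    simp only [e]
    rw [integral_add (i1.fun_add i2) i3, integral_add i1 i2, integral_const_mul, integral_const_mul,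
      hone, hhe]
    ring
  have hval : ∀ t : ℝ, |t| ≤ 1 → ∫ x, U x * ou U t x ∂g1
      = c ^ 2 + d ^ 2 / 2 * t ^ 2 + ∫ x, r x * ou r t x ∂g1 := fun t ht => by
    rw [hcomb U hU t ht, ou_swap hr hU ht, hcomb r hr t ht, hc, hd, hr0, hrH]
    ring
  have hR : ∫ x, r x ^ 2 ∂g1 = (∫ x, U x ^ 2 ∂g1) - c ^ 2 - d ^ 2 / 2 := by
    have h := hval 1 (by norm_num)
    have e : ∀ (f : ℝ → ℝ) x, ou f 1 x = f x := fun f x => by simp [ou, co]
    simp only [e, ← pow_two] at h
    linarith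
  rw [hval q hq, ← hR]
  linarith [ou_decay hr hreven hr0 hr2 hq]

end Vale.Agent.P157.Threshold
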