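import Vale.Agent.P150.Fast.GaussTail
import Vale.Agent.P166.Tame

/-!
Gaussian isoperimetry in exponential form and a Chernoff bound for squares under a tilted law.
-/

open MeasureTheory ProbabilityTheory Filter Topology

namespace Vale.Agent.P157.Threshold

/-- Points far from a set of probability at least one half have exponentially small probability. -/
theorem isoperim {ι : Type} [Fintype ι] {A S : Set (ι → ℝ)} {R : ℝ}
    (hS : (1 : ℝ) / 2 ≤ (Measure.pi fun _ : ι => gaussianReal 0 1).real S) (hR : 3 ≤ R)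
    (hfar : ∀ g ∈ A, ∀ h ∈ S, R ≤ √(∑ i, (g i - h i) ^ 2)) :
    (Measure.pi fun _ : ι => gaussianReal 0 1).real A
      ≤ Real.exp (-(2 * (R - 3) ^ 2 / Real.pi ^ 2)) := by
  set μ := Measure.pi fun _ : ι => gaussianReal 0 1
  set T : Set (EuclideanSpace ℝ ι) := (WithLp.toLp 2) '' S
  set U : (ι → ℝ) → ℝ := fun g => Metric.infDist (WithLp.toLp 2 g) T
  have hSne : S.Nonempty := by
    by_contra h
    rw [Set.not_nonempty_iff_eq_empty] at h
    rw [h] at hS
    simp at hS
    linarith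
  have hdist : ∀ g h : ι → ℝ, dist (WithLp.toLp 2 g : EuclideanSpace ℝ ι) (WithLp.toLp 2 h)
      = √(∑ i, (g i - h i) ^ 2) := fun g h => by
    rw [EuclideanSpace.dist_eq]
    simp [Real.dist_eq, sq_abs]
  have hlip : ∀ g h, |U g - U h| ≤ 1 * √(∑ i, (g i - h i) ^ 2) := fun g h => by
    have h1 := (Metric.lipschitz_infDist_pt T).dist_le_mul (WithLp.toLp 2 g) (WithLp.toLp 2 h)
    rw [Real.dist_eq, NNReal.coe_one, hdist] at h1
    exact h1
  have hU0 : ∀ h ∈ S, U h = 0 := fun h hh => Metric.infDist_zero_of_mem ⟨h, hh, rfl⟩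
  set E := ∫ g, U g ∂μ
  have hE0 : 0 ≤ E := integral_nonneg fun g => Metric.infDist_nonneg
  have hE : E ≤ 3 := by
    by_contra hc
    push Not at hc
    have h := P150.Fast.gaussTail ι (fun g => -U g) 1 one_pos (fun g h => by
      rw [neg_sub_neg, abs_sub_comm]; exact hlip g h) E hE0
    rw [P150.gp, integral_neg] at h
    have hsub : S ⊆ {g | -E + E ≤ -U g} := fun g hg => by simp [hU0 g hg]
    have h2 := hS.trans ((measureReal_mono hsub).trans h)
    have hx : 1 < 2 * E ^ 2 / (Real.pi ^ 2 * 1 ^ 2) := by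
      rw [lt_div_iff₀ (by positivity)]
      nlinarith [Real.pi_lt_four, Real.pi_pos, pow_le_pow_left₀ (by norm_num : (0 : ℝ) ≤ 3) hc.le 2]
    have h3 : Real.exp (-(2 * E ^ 2 / (Real.pi ^ 2 * 1 ^ 2))) < 1 / 2 := by
      refine lt_of_le_of_lt (Real.exp_le_exp.2 (neg_le_neg hx.le)) ?_
      rw [Real.exp_neg, inv_lt_comm₀ (Real.exp_pos 1) (by norm_num)]
      norm_num
      linarith [Real.exp_one_gt_d9]
    linarith
  have h := P150.Fast.gaussTail ι U 1 one_pos hlip (R - 3) (by linarith)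
  rw [P150.gp, one_pow, mul_one] at h
  refine le_trans (measureReal_mono (fun g hg => ?_)) h
  have : R ≤ U g := (Metric.le_infDist (hSne.image _)).2 (by
    rintro _ ⟨h, hh, rfl⟩
    rw [hdist]; exact hfar g hg h hh)
  simp only [Set.mem_ofPred_eq]
  change E + (R - 3) ≤ U g
  linarith

theorem exp_two_bound (x : ℝ) : Real.exp x ≤ 1 + x + x ^ 2 * Real.exp |x| := by
  rcases le_or_gt |x| 1 with hx | hx
  · have h2 := (abs_le.1 (Real.abs_exp_sub_one_sub_id_le hx)).2
    have : x ^ 2 * 1 ≤ x ^ 2 * Real.exp |x| :=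
      mul_le_mul_of_nonneg_left (Real.one_le_exp (abs_nonneg x)) (sq_nonneg x)
    linarith
  · rcases le_or_gt 0 x with h0 | h0
    · rw [abs_of_nonneg h0] at hx ⊢
      have : 1 * Real.exp x ≤ x ^ 2 * Real.exp x :=
        mul_le_mul_of_nonneg_right (one_le_pow₀ hx.le) (Real.exp_pos x).le
      linarith
    · rw [abs_of_neg h0] at hx ⊢
      have h1 : x ^ 2 * (1 - x) ≤ x ^ 2 * Real.exp (-x) :=
        mul_le_mul_of_nonneg_left (by linarith [Real.add_one_le_exp (-x)]) (sq_nonneg x)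
      have h2 : Real.exp x ≤ 1 := Real.exp_le_one_iff.2 h0.le
      nlinarith

/-- One-sided Chernoff factor for the square under a bounded tilt. -/
theorem tilt_rate {w : ℝ → ℝ} (hwm : Measurable w) {W : ℝ} (hw : ∀ x, |w x| ≤ W) (hw0 : ∀ x, 0 ≤ w x)
    {e A η c : ℝ} (he : |e| = 1) (hη : 0 < η) (hc : ∫ x, w x ∂gaussianReal 0 1 = c) (hc0 : 0 < c)
    (hmean : ∫ x, w x * (e * (x ^ 2 - A)) ∂gaussianReal 0 1 ≤ -η) :
    ∃ s ρ, 0 < s ∧ 0 < ρ ∧ ρ < c ∧
      Integrable (fun x => w x * Real.exp (s * (e * (x ^ 2 - A)))) (gaussianReal 0 1) ∧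
      ∫ x, w x * Real.exp (s * (e * (x ^ 2 - A))) ∂gaussianReal 0 1 ≤ ρ := by
  set V : ℝ → ℝ := fun x => e * (x ^ 2 - A)
  set H : ℝ → ℝ := fun x => Real.exp (1 / 4 * x ^ 2)
  set Q : ℝ → ℝ := fun x => V x ^ 2 * Real.exp (|V x| / 8)
  have hW0 : 0 ≤ W := (abs_nonneg _).trans (hw 0)
  have hV : ∀ x, |V x| ≤ x ^ 2 + |A| := fun x => by
    simp only [V, abs_mul, he, one_mul]
    exact (abs_sub _ _).trans_eq (by rw [abs_of_nonneg (sq_nonneg x)])
  have hQ : ∀ x, Q x ≤ 512 * Real.exp (|A| / 4) * H x := fun x => by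
    have h0 := abs_nonneg (V x)
    have h1 : |V x| / 16 + 1 ≤ Real.exp (|V x| / 16) := Real.add_one_le_exp _
    have h2 : (|V x| / 16) ^ 2 ≤ Real.exp (|V x| / 16) ^ 2 := pow_le_pow_left₀ (by positivity) (by linarith) 2
    rw [← Real.exp_nat_mul] at h2
    calc Q x = (|V x| / 16) ^ 2 * 256 * Real.exp (|V x| / 8) := by simp only [Q]; rw [← sq_abs (V x)]; ring
      _ ≤ Real.exp (((2 : ℕ) : ℝ) * (|V x| / 16)) * 256 * Real.exp (|V x| / 8) := by gcongr
      _ = 256 * Real.exp (|V x| / 4) := by rw [mul_comm _ (256 : ℝ), mul_assoc, ← Real.exp_add]; push_cast; ring_nf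
      _ ≤ 512 * (Real.exp (|A| / 4) * H x) := by
          simp only [H, ← Real.exp_add]
          refine mul_le_mul (by norm_num) (Real.exp_le_exp.2 (by linarith [hV x])) (Real.exp_pos _).le (by norm_num)
      _ = _ := by ring
  have iH : Integrable H (gaussianReal 0 1) := (P166.integral_exp_sq (by norm_num)).1
  have hVm : Measurable V := by fun_prop
  have hQ0 : ∀ x, 0 ≤ Q x := fun x => by positivity
  have iQ : Integrable (fun x => w x * Q x) (gaussianReal 0 1) :=
    (iH.const_mul (W * (512 * Real.exp (|A| / 4)))).mono' (hwm.mul (by fun_prop)).aestronglyMeasurable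
      (ae_of_all _ fun x => by
        rw [Real.norm_eq_abs, abs_mul, mul_assoc, abs_of_nonneg (hQ0 x)]
        exact mul_le_mul (hw x) (hQ x) (hQ0 x) hW0)
  have hlin : ∀ x, |V x| ≤ (4 + |A|) * H x := fun x => by
    have h1 : 1 / 4 * x ^ 2 + 1 ≤ H x := Real.add_one_le_exp _
    have h2 : |A| * 1 ≤ |A| * H x := mul_le_mul_of_nonneg_left (by linarith [sq_nonneg x]) (abs_nonneg A)
    linarith [hV x]
  have iV : Integrable (fun x => w x * V x) (gaussianReal 0 1) :=
    (iH.const_mul (W * (4 + |A|))).mono' (hwm.mul hVm).aestronglyMeasurable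
      (ae_of_all _ fun x => by
        rw [Real.norm_eq_abs, abs_mul, mul_assoc]
        exact mul_le_mul (hw x) (hlin x) (abs_nonneg _) hW0)
  have iw : Integrable w (gaussianReal 0 1) :=
    Integrable.of_bound hwm.aestronglyMeasurable W (ae_of_all _ hw)
  set K := ∫ x, w x * Q x ∂gaussianReal 0 1
  have hK : 0 ≤ K := integral_nonneg fun x => mul_nonneg (hw0 x) (hQ0 x)
  set s := min (1 / 8) (min (η / (2 * (K + 1))) (c / η))
  have hs : 0 < s := lt_min (by norm_num) (lt_min (by positivity) (by positivity))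
  have hs8 : s ≤ 1 / 8 := min_le_left _ _
  have hsK : s * (2 * (K + 1)) ≤ η := (le_div_iff₀ (by positivity)).1 ((min_le_right _ _).trans (min_le_left _ _))
  have hsc : s * η ≤ c := (le_div_iff₀ hη).1 ((min_le_right _ _).trans (min_le_right _ _))
  have hb : ∀ x, w x * Real.exp (s * V x) ≤ w x + (s * (w x * V x) + s ^ 2 * (w x * Q x)) := fun x => by
    have he' : Real.exp |s * V x| ≤ Real.exp (|V x| / 8) := by
      refine Real.exp_le_exp.2 ?_
      rw [abs_mul, abs_of_pos hs]
      linarith [mul_le_mul_of_nonneg_right hs8 (abs_nonneg (V x))]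
    have h := (exp_two_bound (s * V x)).trans (add_le_add le_rfl (mul_le_mul_of_nonneg_left he' (sq_nonneg _)))
    refine (mul_le_mul_of_nonneg_left h (hw0 x)).trans_eq ?_
    simp only [Q]; ring
  have iR : Integrable (fun x => w x + (s * (w x * V x) + s ^ 2 * (w x * Q x))) (gaussianReal 0 1) :=
    iw.fun_add ((iV.const_mul _).fun_add (iQ.const_mul _))
  have iE : Integrable (fun x => w x * Real.exp (s * V x)) (gaussianReal 0 1) :=
    iR.mono' (hwm.mul (hVm.const_mul s).exp).aestronglyMeasurable (ae_of_all _ fun x => by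
      rw [Real.norm_eq_abs, abs_of_nonneg (mul_nonneg (hw0 x) (Real.exp_pos _).le)]; exact hb x)
  refine ⟨s, c - s * η / 2, hs, by linarith [mul_pos hs hη], by linarith [mul_pos hs hη], iE, ?_⟩
  refine (integral_mono iE iR hb).trans ?_
  rw [integral_add iw ((iV.const_mul _).fun_add (iQ.const_mul _)),
    integral_add (iV.const_mul _) (iQ.const_mul _), integral_const_mul, integral_const_mul, hc]
  have h1 := mul_le_mul_of_nonneg_left hmean hs.le
  have h2 := mul_le_mul_of_nonneg_left hsK hs.le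
  have h3 : 0 ≤ s ^ 2 := sq_nonneg s
  simp only [K] at h2
  linarith

end Vale.Agent.P157.Threshold
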