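import Vale.Agent.P166.Free.Stieltjes
import Vale.Agent.P166.Free.Top

/-!
The upper end of the spectral law for constant jumps: the edge function bounds it, and the
Stieltjes transform is the smaller root of the edge equation to its right.
-/

open MeasureTheory ProbabilityTheory Filter Topology Matrix Finset

namespace Vale.Agent.P157.Threshold

open Vale.Agent.P166 Vale.Agent.P166.Free

variable {α r : ℝ} {ν : Measure ℝ} [IsProbabilityMeasure ν] {ξ : ℝ → ℝ}

/-- Every admissible value of the edge function is above the upper end. -/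
theorem edge_le (hα : 0 < α) (hξ : ∀ x, |ξ x| ≤ r) (hξm : Measurable ξ) {μ : Measure ℝ} {C e : ℝ}
    (hμ : IsLaw α ν ξ μ C e) {t τ : ℝ} (ht : 0 < t) (hτ : 0 < τ) (htξ : ∀ x, τ ≤ 1 - t * ξ x) :
    e ≤ 1 / t + α * ∫ x, ξ x / (1 - t * ξ x) ∂ν := by
  classical
  set I := ∫ x, ξ x / (1 - t * ξ x) ∂ν
  by_contra hlt
  push Not at hlt
  have hr : 0 ≤ r := (abs_nonneg _).trans (hξ 0)
  set δ := (e - (1 / t + α * I)) / 20
  have hδ : 0 < δ := by simp only [δ]; linarith
  set L0 := r * (α + 1)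
  set W := |e| + 2 * δ + δ + L0 + 1
  have hW : 0 < W := by positivity
  set ε₁ := δ / W
  have hε₁ : 0 < ε₁ := by positivity
  obtain ⟨K, hK, hgd⟩ := gd_tight (ν := ν) (hM_floor hα.le) hε₁
  set R := √(r * (α + 2 + K))
  have hR2 : R ^ 2 = r * (α + 2 + K) := Real.sq_sqrt (by positivity)
  set η₁ := δ / (r * (α + 3) * 4 + 1)
  have hη₁ : 0 < η₁ := by positivity
  have hN0 : Tendsto (fun N : ℕ => ((N : ℝ))⁻¹) atTop (𝓝 0) :=
    tendsto_inv_atTop_zero.comp tendsto_natCast_atTop_atTop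
  have hS0 : Tendsto (fun N : ℕ => (√(N : ℝ))⁻¹) atTop (𝓝 0) :=
    tendsto_inv_atTop_zero.comp (Real.tendsto_sqrt_atTop.comp tendsto_natCast_atTop_atTop)
  have herr : Tendsto (fun N : ℕ => r * (2 * K * (√(N : ℝ))⁻¹ + K * (N : ℝ)⁻¹) + 3 * (α + 1) * (N : ℝ)⁻¹)
      atTop (𝓝 0) := by
    simpa using ((((hS0.const_mul (2 * K)).add (hN0.const_mul K)).const_mul r).add (hN0.const_mul (3 * (α + 1))))
  have herr2 : Tendsto (fun N : ℕ => ((⌊α * N⌋₊ : ℝ) / N - α) * I + 4 * R * √r * (√(N : ℝ))⁻¹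
      + ((2 + t * r) * α + 1) * (N : ℝ)⁻¹ + (2 * r * (α + 1) + r) * (2 * α * (N : ℝ)⁻¹ / η₁)) atTop (𝓝 0) := by
    simpa using ((((((hM_floor hα.le).sub_const α).mul_const I).add (hS0.const_mul (4 * R * √r))).add
      (hN0.const_mul ((2 + t * r) * α + 1))).add
        (((hN0.const_mul (2 * α)).div_const η₁).const_mul (2 * r * (α + 1) + r)))
  obtain ⟨N, hg, hlow, he1, he2, hMpos, hN⟩ := (hgd.and ((low_prob hα.le hξ hξm hμ K hδ hε₁).and
    ((herr.eventually (gt_mem_nhds hδ)).and ((herr2.eventually (gt_mem_nhds hδ)).and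
      (((hM_floor hα.le).eventually (lt_mem_nhds hα)).and (eventually_gt_atTop 0)))))).exists
  have hN' : (0 : ℝ) < N := by exact_mod_cast hN
  have hsN : 0 < √(N : ℝ) := Real.sqrt_pos.2 hN'
  set M := ⌊α * (N : ℝ)⌋₊
  have hM : 0 < M := Nat.pos_of_ne_zero fun h => by simp [h] at hMpos
  have hMα : (M : ℝ) / N ≤ α := by
    rw [div_le_iff₀ hN']; exact Nat.floor_le (by positivity)
  set δN : ℝ := (N : ℝ)⁻¹
  have hδN : 0 < δN := by positivity
  have hSph : IsCompact {x : Fin N → ℝ | ∑ i, x i ^ 2 = 1} :=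
    (isCompact_ball N 1).of_isClosed_subset (isClosed_eq (by fun_prop) continuous_const)
      fun x hx => by simp only [Set.mem_ofPred_eq] at hx ⊢; rw [hx, one_pow]
  obtain ⟨TV₀, hV₀, hVc⟩ := exists_net hSph hδN
  set v₀ : Fin N → ℝ := Pi.single ⟨0, hN⟩ 1
  set TV := insert v₀ TV₀
  have hTV : ∀ v ∈ TV, ∑ i, v i ^ 2 = 1 := fun v hv => by
    rcases Finset.mem_insert.1 hv with rfl | h
    · simp [v₀, Pi.single_apply, ite_pow]
    · exact hV₀ v h
  obtain ⟨TQ, hQ₀, hQc⟩ := exists_net (isCompact_ball M R) hδN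
  obtain ⟨q₀, hq₀, hq₀'⟩ := hQc 0 (by simp [sq_nonneg])
  have : Nonempty TV := ⟨⟨v₀, Finset.mem_insert_self _ _⟩⟩
  have : Nonempty TQ := ⟨⟨q₀, hq₀⟩⟩
  set L := Real.log (Fintype.card (TV × TQ))
  set L' := Real.log (Fintype.card TQ)
  have hL : 0 ≤ L := Real.log_nonneg (by exact_mod_cast Fintype.card_pos)
  have hL' : 0 ≤ L' := Real.log_nonneg (by exact_mod_cast Fintype.card_pos)
  set γ : ℝ := N * (L + L' + 1)
  have hγ : 0 < γ := by positivity
  have hLγ : L / γ ≤ δN ∧ L' / γ ≤ δN := by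
    constructor <;>
    · rw [div_le_iff₀ hγ]
      simp only [δN, γ]
      rw [← mul_assoc, inv_mul_cancel₀ hN'.ne', one_mul]
      linarith
  set Ψ : Pats N M → ℝ := fun P => sv γ (tab ξ TV TQ P) / γ
  have iΨ : Integrable Ψ (P166.pats ν N M) := (integrable_sv hξ hξm γ).div_const γ
  set bad := toMeasurable (P166.pats ν N M)
    ({P : Pats N M | ¬ Gd K P} ∪ {P | Gd K P ∧ ∀ v, ∑ i, v i ^ 2 = 1 → qf (jm ξ P) v < e - δ})
  have hbadp : (P166.pats ν N M).real bad ≤ 2 * ε₁ := by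
    rw [measureReal_def, measure_toMeasurable, ← measureReal_def]
    exact (measureReal_union_le _ _).trans (by linarith)
  set D : Pats N M → ℝ := fun P => |(∑ a, ((P a).1 ⟨0, hN⟩) ^ 2) / N - (M : ℝ) / N|
  have hmpD : MeasurePreserving (fun (P : Pats N M) a => (P a).1 ⟨0, hN⟩) (P166.pats ν N M) (P166.gs M) :=
    measurePreserving_pi (fun _ : Fin M => pl ν N) (fun _ : Fin M => gaussianReal 0 1)
      (f := fun _ (p : (Fin N → ℝ) × ℝ) => p.1 ⟨0, hN⟩) fun _ =>
        (measurePreserving_eval (fun _ : Fin N => gaussianReal 0 1) ⟨0, hN⟩).comp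
          (measurePreserving_fst (μ := P166.gs N) (ν := ν))
  obtain ⟨iD0, hDm⟩ := abs_dev (N := N) M hN hη₁
  have iD : Integrable D (P166.pats ν N M) := hmpD.integrable_comp_of_integrable iD0
  have hDm' : ∫ P, D P ∂P166.pats ν N M ≤ 2 * M / (N : ℝ) ^ 2 / η₁ + η₁ := by
    refine le_trans (le_of_eq ?_) hDm
    exact integral_comp hmpD iD0
  set err := r * (2 * K * (√(N : ℝ))⁻¹ + K * (N : ℝ)⁻¹) + 3 * (α + 1) * (N : ℝ)⁻¹
  have hMN2 : (M : ℝ) * δN ^ 2 ≤ α * δN := by
    calc (M : ℝ) * δN ^ 2 = (M : ℝ) / N * δN := by simp only [δN]; ring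
      _ ≤ _ := mul_le_mul_of_nonneg_right hMα hδN.le
  have hpsi : ∀ (P : Pats N M) (u : Fin N → ℝ), u ∈ TV →
      (Gd K P → qf (jm ξ P) u - (α + 1) * δN ≤ Ψ P) ∧
        -(r * ((∑ a, ((P a).1 ⬝ᵥ u) ^ 2) / N)) - (2 * α + 1) * δN ≤ Ψ P := fun P u hu =>
    psi_ge hξ hN (zero_le_one.trans hK) (by rw [hR2]; exact mul_le_mul_of_nonneg_left (by linarith) hr)
      hδN hγ hTV hQc hLγ.2 hMN2 P hu
  have hpt : ∀ P : Pats N M, (e - δ - err) + (0 - (bad.indicator (fun _ => W) P + r * D P)) ≤ Ψ P := fun P => by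
    have hD0 : 0 ≤ D P := abs_nonneg _
    have hS : (∑ a, ((P a).1 ⬝ᵥ v₀) ^ 2) / N ≤ α + D P := by
      simp only [D, v₀, dotProduct_single, mul_one]
      linarith [le_abs_self ((∑ a, (P a).1 ⟨0, hN⟩ ^ 2) / N - (M : ℝ) / N)]
    have hsc := fun (qu qv : ℝ) => score_le (Ψ := Ψ P) (qu := qu) (qv := qv) (a := (0 : ℝ)) (b := W)
      (e := e) hα.le hr (zero_le_one.trans hK) (inv_nonneg.2 hsN.le) hδN.le hδ.le
      (show (0 : ℝ) ≤ 2 * δ by positivity) hD0 hS (he1.trans_eq (by ring)) (by positivity) rfl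
    by_cases hb : P ∈ bad
    · rw [Set.indicator_of_mem hb]
      exact (hsc 0 0).1 (hpsi P v₀ (Finset.mem_insert_self _ _)).2
    · rw [Set.indicator_of_notMem hb]
      have hG : Gd K P := Classical.not_not.1 fun h => hb (subset_toMeasurable _ _ (Or.inl h))
      have : ∃ v, ∑ i, v i ^ 2 = 1 ∧ e - δ ≤ qf (jm ξ P) v := by
        by_contra h
        push Not at h
        exact hb (subset_toMeasurable _ _ (Or.inr ⟨hG, h⟩))
      obtain ⟨v, hv, hv'⟩ := this
      obtain ⟨u, hu, hvu⟩ := hVc v hv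
      exact (hsc _ _).2.2 ((hpsi P u (Finset.mem_insert_of_mem hu)).1 hG) hv'
        (qf_net hξ hN (zero_le_one.trans hK) hG hv hvu)
  have iB : Integrable (bad.indicator fun _ : Pats N M => W) (P166.pats ν N M) :=
    (integrable_const _).indicator (measurableSet_toMeasurable _ _)
  have hmain := integral_mono
    ((integrable_const _).fun_add ((integrable_const (0 : ℝ)).sub' (iB.fun_add (iD.const_mul r)))) iΨ hpt
  rw [integral_add (integrable_const _) ((integrable_const (0 : ℝ)).sub' (iB.fun_add (iD.const_mul r))),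
    integral_sub (integrable_const (0 : ℝ)) (iB.fun_add (iD.const_mul r)), integral_add iB (iD.const_mul r),
    integral_const_mul, integral_const, integral_const, probReal_univ, one_smul, one_smul,
    integral_indicator_const _ (measurableSet_toMeasurable _ _), smul_eq_mul] at hmain
  have hup : ∫ P, Ψ P ∂P166.pats ν N M ≤ 1 / t + (M : ℝ) / N * I + 4 * |R| * √r / √(N : ℝ)
      + (2 + t * r) * M * δN ^ 2 + 2 * r * ((M : ℝ) / N + 1) * (2 * M / (N : ℝ) ^ 2 / η₁ + η₁) + δN := by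
    simp only [Ψ]
    rw [integral_div, div_le_iff₀ hγ]
    have h := mean_le (ν := ν) hξ hξm ht hτ htξ hN hM hη₁ hγ hTV hQ₀ hQc
      (by rw [hR2]; exact mul_le_mul_of_nonneg_left (by linarith) hr)
    have := hLγ.1
    rw [div_le_iff₀ hγ] at this
    linarith
  have hq : 2 * (M : ℝ) / (N : ℝ) ^ 2 / η₁ ≤ 2 * α * (N : ℝ)⁻¹ / η₁ := by
    gcongr
    calc 2 * (M : ℝ) / (N : ℝ) ^ 2 = 2 * ((M : ℝ) / N) * (N : ℝ)⁻¹ := by ring
      _ ≤ _ := by gcongr
  have hup' : ∫ P, Ψ P ∂P166.pats ν N M + r * ∫ P, D P ∂P166.pats ν N M ≤ (1 / t + α * I) + 3 * δ := by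
    rw [mul_assoc (2 + t * r) (M : ℝ), div_eq_mul_inv _ √(N : ℝ)] at hup
    exact total_le hα.le hr ht.le (Real.sqrt_nonneg _) hMα hMN2 hq (by positivity) rfl hδ.le
      (by linarith) he2 hup hDm'
  have hbW : (P166.pats ν N M).real bad * W ≤ 2 * δ :=
    (mul_le_mul_of_nonneg_right hbadp hW.le).trans_eq (by simp only [ε₁]; field_simp)
  have h20 : 20 * δ = e - (1 / t + α * I) := by simp only [δ]; ring
  linarith

/-- The edge function for a constant jump `ε`. -/
noncomputable def phi (α ε t : ℝ) : ℝ := 1 / t + α * (ε / (1 - ε * t))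

/-- Parameters at a constant jump `ε = ±1` with `√α + ε > 0`: right of the upper end the
Stieltjes transform is the root of the edge equation below the critical point. -/
theorem stieltjes_const {ε : ℝ} (hα : 0 < α) (hε : ε ^ 2 = 1) (hs : 0 < √α + ε) {μ : Measure ℝ} {C e : ℝ}
    (hC : 0 ≤ C) (hμ : IsLaw α (Measure.dirac 1) (fun _ => ε) μ C e) {t : ℝ} (ht : 0 < t)
    (ht' : t * (√α + ε) < 1) :
    e < phi α ε t ∧ ∫ x, (phi α ε t - x)⁻¹ ∂μ = t := by
  have := hμ.prob
  have hsα : √α ^ 2 = α := Real.sq_sqrt hα.le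
  have hε1 : |ε| ≤ 1 := by rw [← sq_le_one_iff_abs_le_one, hε]
  have hlt : ∀ u, 0 < u → u * (√α + ε) ≤ 1 → 0 < 1 - ε * u := fun u hu hu' => by
    nlinarith [mul_pos hu (Real.sqrt_pos.2 hα)]
  set t₀ := 1 / (√α + ε)
  have ht₀ : 0 < t₀ := by positivity
  have ht₀' : t₀ * (√α + ε) = 1 := by simp only [t₀]; field_simp
  set ℓ₀ := phi α ε t₀
  have he : e ≤ ℓ₀ := by
    have h := edge_le (r := 1) hα (fun _ => hε1) measurable_const hμ ht₀
      (τ := 1 - ε * t₀) (hlt _ ht₀ ht₀'.le) fun _ => le_of_eq (by ring)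
    simpa [ℓ₀, phi, mul_comm t₀ ε] using h
  have hphi : ∀ u, 0 < u → u * (√α + ε) ≤ 1 →
      phi α ε u - ℓ₀ = (1 - (√α + ε) * u) ^ 2 / (u * (1 - ε * u)) := fun u hu hu' => by
    have h1 := (hlt u hu hu').ne'
    have hsne : √α ≠ 0 := (Real.sqrt_pos.2 hα).ne'
    have h2 : ℓ₀ = √α + ε + α * (ε * (√α + ε) / √α) := by
      have e1 : 1 - ε * t₀ = √α / (√α + ε) := by simp only [t₀]; field_simp; ring
      simp only [ℓ₀, phi, e1]
      simp only [t₀]
      field_simp
    have h3 : ℓ₀ = ε * (√α + ε) ^ 2 := by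
      have e2 : α * (ε * (√α + ε) / √α) = ε * (√α + ε) * √α := by
        rw [← mul_div_assoc, div_eq_iff hsne]
        linear_combination (ε * (√α + ε)) * (-1 : ℝ) * hsα
      rw [h2, e2]
      linear_combination (-(√α + ε)) * hε
    have key : phi α ε u = (1 - ε * u + u * α * ε) / (u * (1 - ε * u)) := by
      rw [phi, mul_div_assoc', div_add_div _ _ hu.ne' h1]; congr 1; ring
    rw [h3, key, eq_div_iff (mul_ne_zero hu.ne' h1), sub_mul, div_mul_cancel₀ _ (mul_ne_zero hu.ne' h1)]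
    linear_combination (-u * ε - 2 * u * √α + (√α + ε) ^ 2 * u ^ 2) * hε + (-(u * ε)) * hsα
  have hℓ : ℓ₀ < phi α ε t := by
    have h := hphi t ht ht'.le
    have h1 : 0 < (1 - (√α + ε) * t) ^ 2 / (t * (1 - ε * t)) :=
      div_pos (pow_pos (by linarith) 2) (mul_pos ht (hlt t ht ht'.le))
    linarith
  set ℓ := phi α ε t
  refine ⟨he.trans_lt hℓ, ?_⟩
  set A : ℝ → ℝ := fun z => ∫ y, (z - y)⁻¹ ∂μ
  have hw : jw α (Measure.dirac 1) (fun _ => ε) ε = α := by simp [jw]
  -- the edge equation right of the upper end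
  have heq : ∀ z, e < z → (1 - ε * A z) * (z * A z - 1) - α * ε * A z = 0 := by
    set U : Set ℂ := {z : ℂ | e < z.re}
    set F : ℂ → ℂ := fun z => feq {ε} (jw α (Measure.dirac 1) fun _ => ε) Complex.ofRealHom z
      (∫ y, (z - (y : ℂ))⁻¹ ∂μ)
    have hG := stieltjes_analytic hμ
    have hF : AnalyticOnNhd ℂ F U := by
      have h1 := analyticOnNhd_const (v := (1 : ℂ)) (𝕜 := ℂ) (s := U) |>.sub
        ((analyticOnNhd_const (v := ((ε : ℝ) : ℂ))).mul hG)
      simp only [F, feq, Finset.prod_singleton, Finset.sum_singleton, Finset.erase_singleton,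
        Finset.prod_empty, mul_one]
      exact (h1.mul ((analyticOnNhd_id.mul hG).sub analyticOnNhd_const)).sub (analyticOnNhd_const.mul hG)
    have hreal : ∀ z : ℝ, F (z : ℂ)
        = ((feq {ε} (jw α (Measure.dirac 1) fun _ => ε) (RingHom.id ℝ) z (A z) : ℝ) : ℂ) := fun z => by
      simp only [F, A, stieltjes_cast, feq_cast]
    set z₁ := C + |e| + 3
    have hz₁ : ((z₁ : ℝ) : ℂ) ∈ U := by
      simp only [U, Set.mem_ofPred_eq, Complex.ofReal_re, z₁]; linarith [le_abs_self e]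
    have hfreq : ∃ᶠ z in 𝓝[≠] ((z₁ : ℝ) : ℂ), F z = 0 := by
      have ht : Tendsto (fun n : ℕ => ((z₁ + 1 / ((n : ℝ) + 1) : ℝ) : ℂ)) atTop (𝓝[≠] ((z₁ : ℝ) : ℂ)) := by
        refine tendsto_nhdsWithin_iff.2 ⟨?_, Eventually.of_forall fun n => ?_⟩
        · refine (Complex.continuous_ofReal.tendsto _).comp ?_
          simpa using (tendsto_const_nhds (x := z₁)).add (tendsto_one_div_add_atTop_nhds_zero_nat (𝕜 := ℝ))
        · simp only [Set.mem_compl_iff, Set.mem_singleton_iff, Complex.ofReal_inj]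
          have : (0 : ℝ) < 1 / ((n : ℝ) + 1) := by positivity
          linarith
      refine ht.frequently (Eventually.of_forall fun n => ?_).frequently
      have : (0 : ℝ) < 1 / ((n : ℝ) + 1) := by positivity
      rw [hreal, feq_large hμ hC (fun _ => hε1) measurable_const (fun _ => Finset.mem_singleton_self ε)
        (fun s hs => by rw [Finset.mem_singleton.1 hs]; exact hε1)
        (by simp only [z₁]; linarith [abs_nonneg e]) (by simp only [z₁]; linarith [le_abs_self e])]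
      rfl
    have hzero := hF.eqOn_zero_of_preconnected_of_frequently_eq_zero
      (convex_halfSpace_re_gt e).isPreconnected hz₁ hfreq
    intro z hz
    have h := hzero (show ((z : ℝ) : ℂ) ∈ U by simpa [U] using hz)
    rw [hreal, Pi.zero_apply, Complex.ofReal_eq_zero] at h
    simp only [feq, Finset.prod_singleton, Finset.sum_singleton, Finset.erase_singleton,
      Finset.prod_empty, mul_one, RingHom.id_apply, hw] at h
    linarith
  have hne : ∀ z, ℓ ≤ z → A z ≠ t₀ := fun z hz hA => by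
    have h := heq z (he.trans_lt (hℓ.trans_le hz))
    rw [hA] at h
    have h1 := hlt t₀ ht₀ ht₀'.le
    have hgen : ∀ u : ℝ, u ≠ 0 → 1 - ε * u ≠ 0 → (1 - ε * u) * (z * u - 1) - α * ε * u = 0 →
        z = phi α ε u := fun u hu hu' h => by
      rw [phi, mul_div_assoc', div_add_div _ _ hu hu', eq_div_iff (mul_ne_zero hu hu')]
      linear_combination h
    have : z = ℓ₀ := hgen t₀ ht₀.ne' h1.ne' h
    linarith
  have hbelow : A ℓ < t₀ := by
    by_contra hle
    push Not at hle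
    set Z := max ℓ (e + 2 / t₀)
    have hcont : ContinuousOn A (Set.Icc ℓ Z) := fun u hu => by
      have hu' : e < u := he.trans_lt (hℓ.trans_le hu.1)
      have h1 : ContinuousAt (fun u : ℝ => (∫ y, (((u : ℝ) : ℂ) - (y : ℂ))⁻¹ ∂μ).re) u :=
        Complex.continuous_re.continuousAt.comp
          (((stieltjes_analytic hμ) (u : ℂ) (by simpa using hu')).continuousAt.comp
            Complex.continuous_ofReal.continuousAt)
      simp only [stieltjes_cast, Complex.ofReal_re] at h1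
      exact h1.continuousWithinAt
    have hlast : A Z < t₀ := by
      have hZ : e + 2 / t₀ ≤ Z := le_max_right _ _
      have h2 : 0 < 2 / t₀ := by positivity
      refine ((stieltjes_bounds hμ (by linarith)).2.2).trans_lt ?_
      rw [inv_lt_comm₀ (by linarith) ht₀]
      have : t₀⁻¹ < 2 / t₀ := by rw [inv_eq_one_div]; gcongr; norm_num
      linarith
    obtain ⟨u, hu, hu0⟩ := intermediate_value_Icc' (le_max_left _ _) hcont ⟨hlast.le, hle⟩
    exact hne u hu.1 hu0
  have hA0 : 0 < A ℓ := (stieltjes_bounds hμ (he.trans_lt hℓ)).2.1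
  have hfac : (A ℓ - t) * ((1 - ε * A ℓ) * (1 - ε * t) - α * A ℓ * t) = 0 := by
    have h := heq ℓ (he.trans_lt hℓ)
    have h1' := (hlt t ht ht'.le).ne'
    have hl : ℓ * (t * (1 - ε * t)) = 1 - ε * t + α * ε * t := by
      simp only [ℓ, phi]
      rw [mul_div_assoc', div_add_div _ _ ht.ne' h1', div_mul_cancel₀ _ (mul_ne_zero ht.ne' h1')]
      ring
    linear_combination (t * (1 - ε * t)) * h + (-(A ℓ * (1 - ε * A ℓ))) * hl + (α * A ℓ * t * (A ℓ - t)) * hε
  rcases mul_eq_zero.1 hfac with h | h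
  · linarith
  · exfalso
    have hA' : A ℓ * (√α + ε) < 1 := by
      calc A ℓ * (√α + ε) < t₀ * (√α + ε) := mul_lt_mul_of_pos_right hbelow hs
        _ = 1 := ht₀'
    have h1 : 0 < A ℓ * √α := mul_pos hA0 (Real.sqrt_pos.2 hα)
    have h2 : 0 < t * √α := mul_pos ht (Real.sqrt_pos.2 hα)
    have h3 : A ℓ * √α < 1 - ε * A ℓ := by linarith
    have h4 : t * √α < 1 - ε * t := by linarith
    have h5 := mul_lt_mul h3 h4.le h2 (by linarith)
    have h6 : A ℓ * √α * (t * √α) = α * A ℓ * t := by linear_combination (A ℓ * t) * hsα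
    linarith

end Vale.Agent.P157.Threshold
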