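import Vale.Agent.P157.Hybrid
import Vale.Agent.P157.Threshold.Chaos

/-!
Second moment and bounded differences for the Ising perceptron: the annealed value of the pressure
below the second-chaos threshold.
-/

open MeasureTheory ProbabilityTheory Filter Topology

namespace Vale.Agent.P157.Threshold

/-- The normalised partition function. -/
noncomputable def zf (f : ℝ → ℝ) {n m : ℕ} (G : Fin m → Fin n → ℝ) : ℝ :=
  ((2 : ℝ) ^ n)⁻¹ * ∑ σ : Fin n → Bool, Real.exp (∑ a, f (fld (G a) σ))

/-- Unit vector of a configuration. -/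
noncomputable def dir {n : ℕ} (σ : Fin n → Bool) (i : Fin n) : ℝ := sg (σ i) / √n

theorem fld_dir {n : ℕ} (g : Fin n → ℝ) (σ : Fin n → Bool) : fld g σ = ∑ i, g i * dir σ i := by
  simp only [fld, dir, Finset.sum_div, mul_div_assoc]

theorem sg_mul (a b : Bool) : sg a * sg b = if a = b then 1 else -1 := by
  cases a <;> cases b <;> simp [sg]

theorem sum_dir {n : ℕ} (hn : 0 < n) (σ : Fin n → Bool) : ∑ i, dir σ i ^ 2 = 1 := by
  have h : ∀ i, dir σ i ^ 2 = 1 / n := fun i => by
    rw [dir, div_pow, Real.sq_sqrt (Nat.cast_nonneg n)]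
    congr 1
    cases σ i <;> simp [sg]
  simp only [h, Finset.sum_const, Finset.card_univ, Fintype.card_fin, nsmul_eq_mul]
  have : (n : ℝ) ≠ 0 := by exact_mod_cast hn.ne'
  field_simp

variable {f : ℝ → ℝ} {B : ℝ}

theorem zf_pos {n m : ℕ} (f : ℝ → ℝ) (G : Fin m → Fin n → ℝ) : 0 < zf f G := by
  unfold zf; positivity

theorem abs_log_zf (hB : ∀ x, |f x| ≤ B) {n m : ℕ} (G : Fin m → Fin n → ℝ) :
    |Real.log (zf f G)| ≤ m * B :=
  abs_log_avg_le (by positivity) (card_cfg _) fun _ => abs_sum_f_le hB _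

theorem measurable_zf (hfm : Measurable f) (n m : ℕ) : Measurable (zf f (n := n) (m := m)) := by
  unfold zf fld; fun_prop

theorem integrable_zf (hfm : Measurable f) (hB : ∀ x, |f x| ≤ B) (n m k : ℕ) :
    Integrable (fun G => zf f (n := n) (m := m) G ^ k) (pats n m) := by
  refine Integrable.of_bound ((measurable_zf hfm n m).pow_const k).aestronglyMeasurable
    (Real.exp (m * B) ^ k) (ae_of_all _ fun G => ?_)
  rw [Real.norm_eq_abs, abs_of_nonneg (pow_nonneg (zf_pos f G).le k)]
  exact pow_le_pow_left₀ (zf_pos f G).le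
    ((Real.log_le_iff_le_exp (zf_pos f G)).1 (abs_le.1 (abs_log_zf hB G)).2) k

theorem one_field (hfm : Measurable f) {n : ℕ} (hn : 0 < n) (σ : Fin n → Bool) :
    ∫ g, Real.exp (f (fld g σ)) ∂gs n = ∫ x, Real.exp (f x) ∂g1 := by
  simp only [fld_dir]
  conv_rhs => rw [g1, ← P166.map_lin (dir σ) (sum_dir hn σ)]
  have hm : Measurable fun g : Fin n → ℝ => ∑ i, g i * dir σ i := by fun_prop
  rw [integral_map hm.aemeasurable (by fun_prop)]
  rfl

theorem integral_zf (hfm : Measurable f) (hB : ∀ x, |f x| ≤ B) {n : ℕ} (hn : 0 < n) (m : ℕ) :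
    ∫ G, zf f G ∂pats n m = (∫ x, Real.exp (f x) ∂g1) ^ m := by
  have hi : ∀ σ : Fin n → Bool, Integrable (fun G => Real.exp (∑ a, f (fld (G a) σ))) (pats n m) :=
    fun σ => Integrable.of_bound (Measurable.aestronglyMeasurable (by unfold fld; fun_prop))
      (Real.exp (m * B)) (ae_of_all _ fun G => by
        rw [Real.norm_eq_abs, Real.abs_exp]
        exact Real.exp_le_exp.2 (abs_le.1 (abs_sum_f_le hB _)).2)
  have e : ∀ σ : Fin n → Bool,
      ∫ G, Real.exp (∑ a, f (fld (G a) σ)) ∂pats n m = (∫ x, Real.exp (f x) ∂g1) ^ m := fun σ => by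
    simp only [Real.exp_sum, pats]
    rw [integral_fintype_prod_eq_prod (μ := fun _ : Fin m => gs n) (f := fun _ g => Real.exp (f (fld g σ)))]
    simp [one_field hfm hn]
  simp only [zf]
  rw [integral_const_mul, integral_finsetSum _ fun σ _ => hi σ]
  simp [e]

/-- Binary entropy deficit. -/
noncomputable def psi (q : ℝ) : ℝ := ((1 + q) * Real.log (1 + q) + (1 - q) * Real.log (1 - q)) / 2

theorem psi_ge {q : ℝ} (h : |q| ≤ 1) : q ^ 2 / 2 + q ^ 4 / 12 ≤ psi q := by
  wlog hq0 : 0 ≤ q generalizing q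
  · have := this (q := -q) (by rwa [abs_neg]) (by linarith)
    simp only [psi, sub_neg_eq_add, ← sub_eq_add_neg] at this ⊢
    rw [neg_sq, Even.neg_pow (show Even 4 by decide)] at this
    linarith
  set F : ℝ → ℝ := fun t => psi t - (t ^ 2 / 2 + t ^ 4 / 12)
  have hc : ContinuousOn F (Set.Icc 0 1) := by
    have h1 := Real.continuous_mul_log.comp (show Continuous fun t : ℝ => 1 + t by fun_prop)
    have h2 := Real.continuous_mul_log.comp (show Continuous fun t : ℝ => 1 - t by fun_prop)
    exact (((h1.add h2).div_const 2).sub (by fun_prop)).continuousOn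
  have hd : ∀ t ∈ interior (Set.Icc (0 : ℝ) 1),
      HasDerivAt F ((Real.log (1 + t) - Real.log (1 - t)) / 2 - (t + t ^ 3 / 3)) t := fun t ht => by
    rw [interior_Icc] at ht
    have a1 := (Real.hasDerivAt_mul_log (show 1 + t ≠ 0 by linarith [ht.1])).comp t ((hasDerivAt_id t).const_add 1)
    have a2 := (Real.hasDerivAt_mul_log (show 1 - t ≠ 0 by linarith [ht.2])).comp t ((hasDerivAt_id t).const_sub 1)
    refine (((a1.add a2).div_const 2).sub (((hasDerivAt_pow 2 t).div_const 2).add
      ((hasDerivAt_pow 4 t).div_const 12))).congr_deriv ?_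
    push_cast; ring
  set D : ℝ → ℝ := fun t => (Real.log (1 + t) - Real.log (1 - t)) / 2 - (t + t ^ 3 / 3)
  have hD : MonotoneOn D (Set.Ico 0 1) := by
    have hdD : ∀ t ∈ Set.Ico (0 : ℝ) 1, HasDerivAt D
        ((1 / (1 + t) - -1 / (1 - t)) / 2 - (1 + t ^ 2)) t := fun t ht => by
      have a1 := ((hasDerivAt_id t).const_add 1).log (show (1 : ℝ) + id t ≠ 0 by simp; linarith [ht.1])
      have a2 := ((hasDerivAt_id t).const_sub 1).log (show (1 : ℝ) - id t ≠ 0 by simp; linarith [ht.2])
      refine (((a1.sub a2).div_const 2).sub ((hasDerivAt_id t).add ((hasDerivAt_pow 3 t).div_const 3))).congr_deriv ?_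
      simp only [id]
      push_cast; ring
    refine monotoneOn_of_deriv_nonneg (convex_Ico 0 1)
      (fun t ht => (hdD t ht).continuousAt.continuousWithinAt)
      (fun t ht => (hdD t (interior_subset ht)).differentiableAt.differentiableWithinAt) fun t ht => ?_
    obtain ⟨h0, h1⟩ := interior_subset ht
    rw [(hdD t (interior_subset ht)).deriv]
    have : (1 / (1 + t) - -1 / (1 - t)) / 2 - (1 + t ^ 2) = t ^ 4 / ((1 + t) * (1 - t)) := by
      have : (1 : ℝ) + t ≠ 0 := by linarith
      have : (1 : ℝ) - t ≠ 0 := by linarith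
      field_simp
      ring
    rw [this]
    exact div_nonneg (by positivity) (mul_nonneg (by linarith) (by linarith))
  have hF : MonotoneOn F (Set.Icc 0 1) := by
    refine monotoneOn_of_deriv_nonneg (convex_Icc 0 1) hc
      (fun t ht => (hd t ht).differentiableAt.differentiableWithinAt) fun t ht => ?_
    rw [(hd t ht).deriv]
    rw [interior_Icc] at ht
    simpa [D] using hD (show (0 : ℝ) ∈ Set.Ico (0 : ℝ) 1 by norm_num) ⟨ht.1.le, ht.2⟩ ht.1.le
  have := hF (show (0 : ℝ) ∈ Set.Icc (0 : ℝ) 1 by norm_num) ⟨hq0, (abs_le.1 h).2⟩ hq0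
  simp [F, psi] at this
  simp only [psi]
  linarith

theorem pow_eq_exp {x : ℝ} {k : ℕ} (h : 0 < x ∨ k = 0) : x ^ k = Real.exp (k * Real.log x) := by
  rcases h with h | rfl
  · rw [Real.exp_nat_mul, Real.exp_log h]
  · simp

/-- Entropy bound for the overlaps with a fixed configuration. -/
theorem entropy_sum {n : ℕ} (hn : 0 < n) (σ : Fin n → Bool) :
    ∑ τ : Fin n → Bool, Real.exp (n * psi (∑ i, dir σ i * dir τ i)) ≤ (n + 1) * 2 ^ n := by
  classical
  have hn' : (0 : ℝ) < n := by exact_mod_cast hn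
  set Q : ℕ → ℝ := fun j => (2 * j - n) / n
  set k : (Fin n → Bool) → ℕ := fun τ => (Finset.univ.filter fun i => σ i = τ i).card
  have hk : ∀ τ, k τ ≤ n := fun τ => (Finset.card_le_univ _).trans_eq (Fintype.card_fin n)
  have hcomp : ∀ τ, (Finset.univ.filter fun i => ¬ σ i = τ i).card = n - k τ := fun τ => by
    have h := Finset.card_filter_add_card_filter_not (s := Finset.univ) (fun i : Fin n => σ i = τ i)
    rw [Finset.card_univ, Fintype.card_fin] at h
    simp only [k]; omega
  set w : ℕ → (Fin n → Bool) → ℝ := fun j τ => ∏ i, (1 + Q j * if σ i = τ i then 1 else -1)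
  have hQ : ∀ j, j ≤ n → |Q j| ≤ 1 := fun j hj => by
    have : (j : ℝ) ≤ n := by exact_mod_cast hj
    simp only [Q, abs_div, abs_of_pos hn']
    rw [div_le_one hn', abs_le]
    constructor <;> linarith [(Nat.cast_nonneg j : (0 : ℝ) ≤ j)]
  have hterm : ∀ τ : Fin n → Bool, Real.exp (n * psi (∑ i, dir σ i * dir τ i)) = w (k τ) τ := fun τ => by
    have hq : ∑ i, dir σ i * dir τ i = Q (k τ) := by
      have : ∀ i, dir σ i * dir τ i = (if σ i = τ i then (1 : ℝ) else -1) / n := fun i => by
        rw [dir, dir, div_mul_div_comm, sg_mul, Real.mul_self_sqrt hn'.le]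
      simp only [this, ← Finset.sum_div, Finset.sum_ite, Finset.sum_const, nsmul_eq_mul, hcomp, Q]
      rw [Nat.cast_sub (hk τ)]
      congr 1; ring
    have hw : w (k τ) τ = (1 + Q (k τ)) ^ k τ * (1 - Q (k τ)) ^ (n - k τ) := by
      have e : ∀ i, (1 + Q (k τ) * if σ i = τ i then (1 : ℝ) else -1)
          = if σ i = τ i then 1 + Q (k τ) else 1 - Q (k τ) := fun i => by split_ifs <;> ring
      simp only [w, e, Finset.prod_ite, Finset.prod_const, hcomp]
      rfl
    obtain ⟨hq1, hq2⟩ := abs_le.1 (hQ _ (hk τ))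
    have hp : 0 < 1 + Q (k τ) ∨ k τ = 0 := by
      rcases Nat.eq_zero_or_pos (k τ) with h | h
      · exact Or.inr h
      · refine Or.inl ?_
        have : (0 : ℝ) < k τ := by exact_mod_cast h
        simp only [Q]
        rw [one_add_div hn'.ne']
        exact div_pos (by linarith) hn'
    have hm : 0 < 1 - Q (k τ) ∨ n - k τ = 0 := by
      rcases Nat.eq_zero_or_pos (n - k τ) with h | h
      · exact Or.inr h
      · refine Or.inl ?_
        have : (k τ : ℝ) < n := by exact_mod_cast (show k τ < n by omega)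
        simp only [Q]
        rw [one_sub_div hn'.ne']
        exact div_pos (by linarith) hn'
    rw [hw, pow_eq_exp hp, pow_eq_exp hm, ← Real.exp_add, hq, psi, Nat.cast_sub (hk τ)]
    congr 1
    simp only [Q]
    field_simp
    ring
  simp only [hterm]
  have hw0 : ∀ j ∈ Finset.range (n + 1), ∀ τ, 0 ≤ w j τ := fun j hj τ =>
    Finset.prod_nonneg fun i _ => by
      have := abs_le.1 (hQ j (by have := Finset.mem_range.1 hj; omega))
      split_ifs <;> linarith
  refine (Finset.sum_le_sum fun τ _ => Finset.single_le_sum (f := fun j => w j τ)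
    (fun j hj => hw0 j hj τ) (Finset.mem_range.2 (Nat.lt_succ_of_le (hk τ)))).trans ?_
  rw [Finset.sum_comm]
  have htot : ∀ j : ℕ, ∑ τ, w j τ = (2 : ℝ) ^ n := fun j => by
    simp only [w]
    rw [← Fintype.prod_sum (fun i (b : Bool) => 1 + Q j * if σ i = b then 1 else -1)]
    have : ∀ i, ∑ b : Bool, (1 + Q j * if σ i = b then 1 else -1) = 2 := fun i => by
      cases σ i <;> simp <;> ring
    rw [Finset.prod_congr rfl fun i _ => this i]
    simp
  simp [htot]

/-- Second moment below the threshold. -/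
theorem integral_zf_sq (hfm : Measurable f) (hB : ∀ x, |f x| ≤ B) (heven : ∀ x, f (-x) = f x)
    {c d : ℝ} (hc : ∫ x, Real.exp (f x) ∂g1 = c) (hc0 : 0 < c)
    (hd : ∫ x, he2 x * Real.exp (f x) ∂g1 = d)
    {n m : ℕ} (hn : 0 < n) (hm : m * d ^ 2 ≤ n * c ^ 2)
    (hmR : m * (∫ x, Real.exp (f x) ^ 2 ∂g1 - c ^ 2 - d ^ 2 / 2) ≤ n * c ^ 2 / 12) :
    ∫ G, zf f G ^ 2 ∂pats n m ≤ (n + 1) * c ^ (2 * m) := by
  have hi : ∀ σ τ : Fin n → Bool, Integrable (fun G =>
      Real.exp (∑ a, f (fld (G a) σ)) * Real.exp (∑ a, f (fld (G a) τ))) (pats n m) :=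
    fun σ τ => Integrable.of_bound (Measurable.aestronglyMeasurable (by unfold fld; fun_prop))
      (Real.exp (m * B) * Real.exp (m * B)) (ae_of_all _ fun G => by
        rw [Real.norm_eq_abs, abs_mul, Real.abs_exp, Real.abs_exp]
        gcongr <;> exact (abs_le.1 (abs_sum_f_le hB _)).2)
  have hpair : ∀ σ τ : Fin n → Bool,
      ∫ G, Real.exp (∑ a, f (fld (G a) σ)) * Real.exp (∑ a, f (fld (G a) τ)) ∂pats n m
        ≤ c ^ (2 * m) * Real.exp (n * psi (∑ i, dir σ i * dir τ i)) := fun σ τ => by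
    set q := ∑ i, dir σ i * dir τ i
    simp only [← Real.exp_add, ← Finset.sum_add_distrib]
    simp only [Real.exp_sum, pats]
    rw [integral_fintype_prod_eq_prod (μ := fun _ : Fin m => gs n)
      (f := fun _ g => Real.exp (f (fld g σ) + f (fld g τ)))]
    simp only [Finset.prod_const, Finset.card_univ, Fintype.card_fin, Real.exp_add, fld_dir]
    have h2 := two_point (U := fun x => Real.exp (f x)) hfm.exp (B := Real.exp B)
      (fun x => by rw [Real.abs_exp]; exact Real.exp_le_exp.2 (abs_le.1 (hB x)).2)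
      (fun x => by rw [heven]) hc hd (sum_dir hn σ) (sum_dir hn τ)
    have hq : |q| ≤ 1 := (pair_int (sum_dir hn σ) (sum_dir hn τ) rfl (F := fun _ _ => 0) (by fun_prop)).1
    have h0 : 0 ≤ ∫ g, Real.exp (f (∑ i, g i * dir σ i)) * Real.exp (f (∑ i, g i * dir τ i)) ∂gs n :=
      integral_nonneg fun g => by positivity
    set R₀ := ∫ x, Real.exp (f x) ^ 2 ∂g1 - c ^ 2 - d ^ 2 / 2
    set u := (d ^ 2 / 2 * q ^ 2 + R₀ * q ^ 4) / c ^ 2
    have hle : ∫ g, Real.exp (f (∑ i, g i * dir σ i)) * Real.exp (f (∑ i, g i * dir τ i)) ∂gs n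
        ≤ c ^ 2 * Real.exp u := by
      refine le_trans (h2.trans ?_) (mul_le_mul_of_nonneg_left (Real.add_one_le_exp u) (sq_nonneg c))
      simp only [u]
      field_simp
      linarith
    refine (pow_le_pow_left₀ h0 hle m).trans ?_
    rw [mul_pow, ← pow_mul, ← Real.exp_nat_mul]
    refine mul_le_mul_of_nonneg_left (Real.exp_le_exp.2 ?_) (by positivity)
    calc (m : ℝ) * u = (m * d ^ 2 * (q ^ 2 / 2) + m * R₀ * q ^ 4) / c ^ 2 := by simp only [u]; ring
      _ ≤ n * (q ^ 2 / 2 + q ^ 4 / 12) := by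
          rw [div_le_iff₀ (by positivity)]
          have h3 := mul_le_mul_of_nonneg_right hm (show 0 ≤ q ^ 2 / 2 by positivity)
          have h4 := mul_le_mul_of_nonneg_right hmR (show 0 ≤ q ^ 4 by positivity)
          linarith
      _ ≤ _ := mul_le_mul_of_nonneg_left (psi_ge hq) (Nat.cast_nonneg n)
  have e : ∀ G : Fin m → Fin n → ℝ, zf f G ^ 2 = (((2 : ℝ) ^ n)⁻¹) ^ 2 * ∑ σ : Fin n → Bool,
      ∑ τ : Fin n → Bool, Real.exp (∑ a, f (fld (G a) σ)) * Real.exp (∑ a, f (fld (G a) τ)) := fun G => by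
    rw [zf, mul_pow, pow_two (Finset.sum _ _), Finset.sum_mul_sum]
  simp only [e]
  rw [integral_const_mul, integral_finsetSum _ fun σ _ => integrable_finsetSum _ fun τ _ => hi σ τ]
  calc _ ≤ (((2 : ℝ) ^ n)⁻¹) ^ 2 * ∑ _σ : Fin n → Bool, c ^ (2 * m) * ((n + 1) * 2 ^ n) := by
        refine mul_le_mul_of_nonneg_left (Finset.sum_le_sum fun σ _ => ?_) (by positivity)
        rw [integral_finsetSum _ fun τ _ => hi σ τ]
        refine (Finset.sum_le_sum fun τ _ => hpair σ τ).trans ?_
        rw [← Finset.mul_sum]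
        exact mul_le_mul_of_nonneg_left (entropy_sum hn σ) (by positivity)
    _ = _ := by
        simp only [Finset.sum_const, Finset.card_univ, Fintype.card_fun, Fintype.card_bool, Fintype.card_fin,
          nsmul_eq_mul, Nat.cast_pow, Nat.cast_ofNat]
        field_simp

/-- Bounded differences give Gaussian exponential moments. -/
theorem bdd_mgf {X : Type*} [MeasurableSpace X] (μ : Measure X) [IsProbabilityMeasure μ] {D : ℝ}
    (hD : 0 ≤ D) : ∀ (m : ℕ) (F : (Fin m → X) → ℝ), Measurable F → ∀ C : ℝ, (∀ x, |F x| ≤ C) →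
      (∀ x y a, (∀ b, b ≠ a → x b = y b) → |F x - F y| ≤ D) → ∀ s : ℝ,
      ∫ x, Real.exp (s * (F x - ∫ y, F y ∂Measure.pi fun _ => μ)) ∂Measure.pi (fun _ => μ)
        ≤ Real.exp (m * D ^ 2 * s ^ 2 / 2) := by
  intro m
  induction m with
  | zero =>
    intro F _ C _ _ s
    have h : ∀ x : Fin 0 → X, F x = F Fin.elim0 := fun x => by rw [Subsingleton.elim x Fin.elim0]
    simp [h]
  | succ m ih =>
    intro F hF C hC hd s
    set π := Measure.pi fun _ : Fin m => μ
    have hcons : Measurable fun p : X × (Fin m → X) => (Fin.cons p.1 p.2 : Fin (m + 1) → X) := by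
      refine measurable_pi_lambda _ fun i => ?_
      refine Fin.cases ?_ (fun j => ?_) i <;> simp <;> fun_prop
    set F' : X → (Fin m → X) → ℝ := fun x r => F (Fin.cons x r)
    have hF' : Measurable fun p : X × (Fin m → X) => F' p.1 p.2 := hF.comp hcons
    set G : X → ℝ := fun x => ∫ r, F' x r ∂π
    have hGm : Measurable G := (hF'.stronglyMeasurable.integral_prod_right (ν := π)).measurable
    have hGb : ∀ x, |G x| ≤ C := fun x => by
      simpa [Real.norm_eq_abs] using norm_integral_le_of_norm_le_const (μ := π) (C := C)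
        (f := F' x) (ae_of_all _ fun r => hC _)
    have hmp := (measurePreserving_piFinSuccAbove (fun _ : Fin (m + 1) => μ) 0).symm
    have hchange : ∀ φ : (Fin (m + 1) → X) → ℝ, Measurable φ → ∀ K : ℝ, (∀ x, |φ x| ≤ K) →
        ∫ x, φ x ∂Measure.pi (fun _ => μ) = ∫ a, ∫ r, φ (Fin.cons a r) ∂π ∂μ := fun φ hφ K hK => by
      rw [← hmp.integral_comp', integral_prod]
      · simp [π, MeasurableEquiv.piFinSuccAbove, Fin.insertNthEquiv]
      · refine Integrable.of_bound (hφ.comp hmp.measurable).aestronglyMeasurable K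
          (ae_of_all _ fun p => hK _)
    set E₀ := ∫ y, F y ∂Measure.pi fun _ => μ
    have hEG : E₀ = ∫ a, G a ∂μ := hchange F hF C hC
    have hC0 : ∀ a, |s * (F a - E₀)| ≤ |s| * (C + |E₀|) := fun a => by
      rw [abs_mul]
      exact mul_le_mul_of_nonneg_left ((abs_sub _ _).trans (add_le_add (hC a) le_rfl)) (abs_nonneg s)
    rw [hchange (fun x => Real.exp (s * (F x - E₀))) (by fun_prop) (Real.exp (|s| * (C + |E₀|)))
      (fun x => by rw [Real.abs_exp]; exact Real.exp_le_exp.2 ((le_abs_self _).trans (hC0 x)))]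
    have inner : ∀ a, ∫ r, Real.exp (s * (F (Fin.cons a r) - E₀)) ∂π
        ≤ Real.exp (s * (G a - E₀)) * Real.exp (m * D ^ 2 * s ^ 2 / 2) := fun a => by
      have h := ih (F' a) (hF.comp (hcons.comp measurable_prodMk_left)) C (fun r => hC _) (fun x y b hb => by
        refine hd _ _ b.succ fun c hc => ?_
        induction c using Fin.cases with
        | zero => simp
        | succ c => simpa using hb c fun h => hc (by rw [h])) s
      refine le_of_eq_of_le ?_ (mul_le_mul_of_nonneg_left h (Real.exp_pos _).le)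
      rw [← integral_const_mul]
      refine integral_congr_ae (ae_of_all _ fun r => ?_)
      simp only [← Real.exp_add, F', G, π]; ring_nf
    have hosc : ∀ a b, |G a - G b| ≤ D := fun a b => by
      have i1 : ∀ z, Integrable (F' z) π := fun z => Integrable.of_bound
        (hF.comp (hcons.comp measurable_prodMk_left)).aestronglyMeasurable C (ae_of_all _ fun r => hC _)
      simp only [G]
      rw [← integral_sub (i1 a) (i1 b)]
      simpa [Real.norm_eq_abs] using norm_integral_le_of_norm_le_const (μ := π) (C := D)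
        (f := fun r => F' a r - F' b r) (ae_of_all _ fun r => hd _ _ 0 fun c hc => by
          induction c using Fin.cases with
          | zero => exact absurd rfl hc
          | succ c => simp)
    obtain ⟨a₀⟩ := nonempty_of_isProbabilityMeasure μ
    have hsub := hasSubgaussianMGF_of_mem_Icc (μ := μ) (X := G) (a := G a₀ - D) (b := G a₀ + D) hGm.aemeasurable
      (ae_of_all _ fun a => ⟨by linarith [(abs_le.1 (hosc a a₀)).1], by linarith [(abs_le.1 (hosc a a₀)).2]⟩)
    have hle : ∫ a, Real.exp (s * (G a - E₀)) ∂μ ≤ Real.exp (D ^ 2 * s ^ 2 / 2) := by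
      refine le_of_eq_of_le ?_ ((hsub.mgf_le s).trans_eq ?_)
      · rw [mgf, hEG]
      · congr 2
        push_cast
        rw [Real.norm_eq_abs, abs_of_nonneg (by linarith)]
        ring
    have io : Integrable (fun a => Real.exp (s * (G a - E₀)) * Real.exp (m * D ^ 2 * s ^ 2 / 2)) μ :=
      (Integrable.of_bound (by fun_prop) (Real.exp (|s| * (C + |E₀|))) (ae_of_all _ fun a => by
        rw [Real.norm_eq_abs, Real.abs_exp]
        refine Real.exp_le_exp.2 ((le_abs_self _).trans ?_)
        rw [abs_mul]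
        exact mul_le_mul_of_nonneg_left ((abs_sub _ _).trans (add_le_add (hGb a) le_rfl)) (abs_nonneg s))).mul_const _
    refine (integral_mono_of_nonneg (ae_of_all _ fun a => integral_nonneg fun r => (Real.exp_pos _).le) io
      (ae_of_all _ inner)).trans ?_
    rw [integral_mul_const]
    refine (mul_le_mul_of_nonneg_right hle (Real.exp_pos _).le).trans_eq ?_
    rw [← Real.exp_add]
    congr 1
    push_cast; ring

/-- Changing one pattern moves the log partition function by at most `2B`. -/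
theorem log_zf_diff (hB : ∀ x, |f x| ≤ B) {n m : ℕ} (G H : Fin m → Fin n → ℝ) (a : Fin m)
    (h : ∀ b, b ≠ a → G b = H b) : |Real.log (zf f G) - Real.log (zf f H)| ≤ 2 * B := by
  have hB0 : 0 ≤ B := (abs_nonneg _).trans (hB 0)
  have key : ∀ G H : Fin m → Fin n → ℝ, (∀ b, b ≠ a → G b = H b) →
      Real.log (zf f G) ≤ Real.log (zf f H) + 2 * B := fun G H h => by
    rw [← Real.log_exp (2 * B), ← Real.log_mul (zf_pos f H).ne' (Real.exp_pos _).ne']
    refine Real.log_le_log (zf_pos f G) ?_
    simp only [zf, mul_assoc, Finset.sum_mul, ← Real.exp_add]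
    refine mul_le_mul_of_nonneg_left (Finset.sum_le_sum fun σ _ => Real.exp_le_exp.2 ?_) (by positivity)
    have : ∑ b, (f (fld (G b) σ) - f (fld (H b) σ)) = f (fld (G a) σ) - f (fld (H a) σ) :=
      Finset.sum_eq_single a (fun b _ hb => by rw [h b hb, sub_self]) (by simp)
    rw [Finset.sum_sub_distrib] at this
    linarith [(abs_le.1 (hB (fld (G a) σ))).2, (abs_le.1 (hB (fld (H a) σ))).1]
  exact abs_le.2 ⟨by linarith [key H G fun b hb => (h b hb).symm], by linarith [key G H h]⟩

theorem press_eq (f : ℝ → ℝ) (n m : ℕ) : press f n m = ∫ G, Real.log (zf f G) ∂pats n m := rfl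

/-- The pressure never exceeds the annealed value. -/
theorem press_le (hfm : Measurable f) (hB : ∀ x, |f x| ≤ B) {n : ℕ} (hn : 0 < n) (m : ℕ) :
    press f n m ≤ m * Real.log (∫ x, Real.exp (f x) ∂g1) := by
  set c := ∫ x, Real.exp (f x) ∂g1
  have hi : Integrable (fun G => zf f G) (pats n m) := by simpa using integrable_zf hfm hB n m 1
  have hc : 0 < c := by
    refine (integral_pos_iff_support_of_nonneg (fun x => (Real.exp_pos _).le) ?_).2 ?_
    · exact Integrable.of_bound hfm.exp.aestronglyMeasurable (Real.exp B) (ae_of_all _ fun x => by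
        rw [Real.norm_eq_abs, Real.abs_exp]; exact Real.exp_le_exp.2 (abs_le.1 (hB x)).2)
    · simp [Function.support, Real.exp_ne_zero]
  have hcm : 0 < c ^ m := pow_pos hc m
  rw [press_eq, ← Real.log_pow]
  have hlin : ∀ G : Fin m → Fin n → ℝ, Real.log (zf f G) ≤ (c ^ m)⁻¹ * zf f G + (Real.log (c ^ m) - 1) := fun G => by
    have := Real.log_le_sub_one_of_pos (mul_pos (inv_pos.2 hcm) (zf_pos f G))
    rw [Real.log_mul (inv_pos.2 hcm).ne' (zf_pos f G).ne', Real.log_inv] at this
    linarith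
  refine (integral_mono (integrable_press hfm hB n m) ((hi.const_mul _).fun_add (integrable_const _)) hlin).trans_eq ?_
  rw [integral_add (hi.const_mul _) (integrable_const _), integral_const_mul, integral_zf hfm hB hn m]
  simp only [integral_const, probReal_univ, one_smul]
  rw [inv_mul_cancel₀ hcm.ne']
  ring

/-- Below the threshold the pressure attains the annealed value up to `o(n)`. -/
theorem press_lower (hfm : Measurable f) (hB : ∀ x, |f x| ≤ B) (heven : ∀ x, f (-x) = f x)
    {c d α : ℝ} (hc : ∫ x, Real.exp (f x) ∂g1 = c) (hc0 : 0 < c)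
    (hd : ∫ x, he2 x * Real.exp (f x) ∂g1 = d)
    (hα : 0 < α) (hαd : α * d ^ 2 ≤ c ^ 2)
    (hαR : α * (∫ x, Real.exp (f x) ^ 2 ∂g1 - c ^ 2 - d ^ 2 / 2) ≤ c ^ 2 / 12) {δ : ℝ} (hδ : 0 < δ) :
    ∀ᶠ n : ℕ in atTop, (⌊α * n⌋₊ : ℝ) * Real.log c - δ * n ≤ press f n ⌊α * n⌋₊ := by
  have hB0 : 0 ≤ B := (abs_nonneg _).trans (hB 0)
  set D := 2 * B + 1
  set s := δ / (4 * α * D ^ 2)
  have hs : 0 < s := by positivity
  set κ := s * δ / 4
  have hκ : 0 < κ := by positivity
  have hev : ∀ᶠ n : ℕ in atTop, ((n : ℝ) + 1) * Real.exp (-(κ * n)) < 1 / 4 := by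
    have h1 := ((Real.tendsto_pow_mul_exp_neg_atTop_nhds_zero 1).comp
      (tendsto_natCast_atTop_atTop.const_mul_atTop hκ)).div_const κ
    have h2 : Tendsto (fun n : ℕ => Real.exp (-(κ * n))) atTop (𝓝 0) :=
      Real.tendsto_exp_atBot.comp (tendsto_neg_atTop_atBot.comp (tendsto_natCast_atTop_atTop.const_mul_atTop hκ))
    have h3 := h1.add h2
    simp only [zero_div, zero_add] at h3
    refine (h3.eventually (gt_mem_nhds (show (0 : ℝ) < 1 / 4 by norm_num))).mono fun n hn => ?_
    simp only [Function.comp_apply, pow_one] at hn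
    refine lt_of_eq_of_lt ?_ hn
    field_simp
  have hln : ∀ᶠ n : ℕ in atTop, 2 * Real.log 2 / δ ≤ (n : ℝ) :=
    tendsto_natCast_atTop_atTop.eventually_ge_atTop _
  filter_upwards [hev, hln, eventually_gt_atTop 0] with n hn1 hn2 hn
  have hn' : (0 : ℝ) < n := by exact_mod_cast hn
  set m := ⌊α * (n : ℝ)⌋₊
  have hm : (m : ℝ) ≤ α * n := Nat.floor_le (by positivity)
  have h2 := integral_zf_sq hfm hB heven hc hc0 hd hn (m := m) (by
    calc (m : ℝ) * d ^ 2 ≤ α * n * d ^ 2 := mul_le_mul_of_nonneg_right hm (sq_nonneg d)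
      _ = n * (α * d ^ 2) := by ring
      _ ≤ _ := mul_le_mul_of_nonneg_left hαd hn'.le) (by
    rcases le_total 0 (∫ x, Real.exp (f x) ^ 2 ∂g1 - c ^ 2 - d ^ 2 / 2) with hR | hR
    · have h3 := mul_le_mul_of_nonneg_right hm hR
      have h4 := mul_le_mul_of_nonneg_left hαR hn'.le
      linarith
    · exact (mul_nonpos_of_nonneg_of_nonpos (Nat.cast_nonneg m) hR).trans (by positivity))
  have h1 := integral_zf hfm hB hn m
  rw [hc] at h1
  have hcm : 0 < c ^ m := pow_pos hc0 m
  rw [pow_mul', pow_two] at h2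
  set S := {G : Fin m → Fin n → ℝ | c ^ m / 2 ≤ zf f G}
  have hS : MeasurableSet S := measurableSet_le measurable_const (measurable_zf hfm n m)
  set τ := 2 * ((n : ℝ) + 1) * c ^ m
  have hτ : 0 < τ := by positivity
  -- Paley-Zygmund
  have hPZ : 1 / (4 * ((n : ℝ) + 1)) ≤ (pats n m).real S := by
    have hpt : ∀ G, zf f G ≤ c ^ m / 2 + (zf f G ^ 2 / (2 * τ) + S.indicator (fun _ => τ / 2) G) := fun G => by
      by_cases h : G ∈ S
      · rw [Set.indicator_of_mem h]
        have : zf f G ≤ zf f G ^ 2 / (2 * τ) + τ / 2 := by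
          rw [div_add_div _ _ (by positivity) two_ne_zero, le_div_iff₀ (by positivity)]
          nlinarith [sq_nonneg (zf f G - τ)]
        linarith
      · rw [Set.indicator_of_notMem h]
        simp only [S, Set.mem_ofPred_eq, not_le] at h
        have : 0 ≤ zf f G ^ 2 / (2 * τ) := by positivity
        linarith
    have i1 : Integrable (fun G => zf f G) (pats n m) := by simpa using integrable_zf hfm hB n m 1
    have i2 := (integrable_zf hfm hB n m 2).div_const (2 * τ)
    have i3 : Integrable (S.indicator fun _ => τ / 2) (pats n m) := (integrable_const _).indicator hS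
    have hI := integral_mono i1 ((integrable_const _).fun_add (i2.fun_add i3)) hpt
    rw [integral_add (integrable_const _) (i2.fun_add i3), integral_add i2 i3, integral_div,
      integral_indicator_const _ hS, h1, integral_const, probReal_univ, one_smul, smul_eq_mul] at hI
    have : (∫ G, zf f G ^ 2 ∂pats n m) / (2 * τ) ≤ c ^ m / 4 := by
      rw [div_le_iff₀ (by positivity)]; simp only [τ]; linarith
    rw [div_le_iff₀ (by positivity)]
    refine le_of_mul_le_mul_right ?_ hcm
    simp only [integral_div] at hI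
    rw [show τ / 2 = ((n : ℝ) + 1) * c ^ m by simp only [τ]; ring] at hI
    linarith
  by_contra hlt
  push Not at hlt
  have hdiff : ∀ x y a, (∀ b, b ≠ a → x b = y b) →
      |Real.log (zf f (n := n) (m := m) x) - Real.log (zf f y)| ≤ D := fun x y a h =>
    (log_zf_diff hB x y a h).trans (by simp only [D]; linarith)
  have hmgf := bdd_mgf (gs n) (by positivity : 0 ≤ D) m (fun G => Real.log (zf f G))
    (measurable_zf hfm n m).log (m * B) (abs_log_zf hB) hdiff s
  set E₀ := press f n m
  change ∫ G, Real.exp (s * (Real.log (zf f G) - E₀)) ∂pats n m ≤ _ at hmgf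
  have iexp : Integrable (fun G => Real.exp (s * (Real.log (zf f (n := n) (m := m) G) - E₀))) (pats n m) :=
    Integrable.of_bound ((((measurable_zf hfm n m).log.sub_const E₀).const_mul s).exp).aestronglyMeasurable
      (Real.exp (s * (m * B + |E₀|))) (ae_of_all _ fun G => by
        rw [Real.norm_eq_abs, Real.abs_exp]
        refine Real.exp_le_exp.2 (mul_le_mul_of_nonneg_left ?_ hs.le)
        linarith [(abs_le.1 (abs_log_zf hB G)).2, neg_abs_le E₀])
  have hsub : S ⊆ {G | Real.exp (s * (δ * n / 2)) ≤ Real.exp (s * (Real.log (zf f G) - E₀))} := fun G hG => by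
    simp only [S, Set.mem_ofPred_eq] at hG ⊢
    refine Real.exp_le_exp.2 (mul_le_mul_of_nonneg_left ?_ hs.le)
    have := Real.log_le_log (by positivity) hG
    rw [Real.log_div hcm.ne' two_ne_zero, Real.log_pow] at this
    have : Real.log 2 ≤ δ * n / 2 := by
      rw [div_le_iff₀ hδ] at hn2; linarith
    linarith
  have hmk := mul_meas_ge_le_integral_of_nonneg (ae_of_all _ fun G => (Real.exp_pos _).le) iexp
    (Real.exp (s * (δ * n / 2)))
  have hP : (pats n m).real S ≤ Real.exp (-(κ * n)) := by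
    refine le_of_mul_le_mul_left ?_ (Real.exp_pos (s * (δ * n / 2)))
    rw [← Real.exp_add]
    refine (le_trans (mul_le_mul_of_nonneg_left (measureReal_mono hsub) (Real.exp_pos _).le) hmk).trans
      (hmgf.trans (Real.exp_le_exp.2 ?_))
    have h5 : (m : ℝ) * D ^ 2 * s ^ 2 / 2 ≤ α * n * D ^ 2 * s ^ 2 / 2 := by gcongr
    have h6 : α * D ^ 2 * s = δ / 4 := by
      have hD0 : D ≠ 0 := (show 0 < D by positivity).ne'
      simp only [s]; field_simp
    have h7 : α * n * D ^ 2 * s ^ 2 / 2 = δ * s * n / 8 := by linear_combination ((n : ℝ) * s / 2) * h6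
    simp only [κ]
    linarith [mul_pos (mul_pos hδ hs) hn']
  have := hPZ.trans hP
  rw [div_le_iff₀ (by positivity)] at this
  linarith

end Vale.Agent.P157.Threshold
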