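import Vale.Agent.P166.Rot
import Vale.Agent.P157.Threshold.Edge

/-!
An outlier of a Gaussian matrix with one fixed column: a polynomial trial vector beats every level
below the spike value with probability at least one half.
-/

open MeasureTheory ProbabilityTheory Filter Topology Matrix Finset Polynomial

namespace Vale.Agent.P157.Threshold

open Vale.Agent.P166 Vale.Agent.P166.Free

variable {n M : ℕ} {α ε : ℝ}

/-- Gram matrix on the pattern side. -/
noncomputable def cmat (ε : ℝ) (g : Fin (n * M) → ℝ) : Matrix (Fin M) (Fin M) ℝ :=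
  (ε / n) • ((mat g)ᵀ * mat g)

/-- Gram matrix on the spin side. -/
noncomputable def amat (ε : ℝ) (g : Fin (n * M) → ℝ) : Matrix (Fin n) (Fin n) ℝ :=
  (ε / n) • (mat g * (mat g)ᵀ)

/-- The columns as marked patterns. -/
noncomputable def cols (g : Fin (n * M) → ℝ) : Pats n M := fun a => (fun i => mat g i a, 1)

theorem cmat_symm (g : Fin (n * M) → ℝ) : (cmat ε g)ᵀ = cmat ε g := by
  simp [cmat, Matrix.transpose_mul]

theorem amat_symm (g : Fin (n * M) → ℝ) : (amat ε g)ᵀ = amat ε g := by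
  simp [amat, Matrix.transpose_mul]

theorem jm_cols (g : Fin (n * M) → ℝ) : jm (fun _ => ε) (cols g) = amat ε g := by
  ext i j
  simp only [jm, cols, amat, Matrix.smul_apply, Matrix.mul_apply, Matrix.transpose_apply, smul_eq_mul,
    Finset.mul_sum, Finset.sum_div]
  exact Finset.sum_congr rfl fun a _ => by ring

theorem mp_cols (n M : ℕ) :
    MeasurePreserving (cols (n := n) (M := M)) (P166.gs (n * M)) (P166.pats (Measure.dirac 1) n M) := by
  set c : Fin (M * n) → Fin (n * M) := fun j =>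
    finProdFinEquiv ((finProdFinEquiv.symm j).2, (finProdFinEquiv.symm j).1)
  have hc : Function.Injective c := fun i j h => by
    have h' := finProdFinEquiv.injective h
    simp only [Prod.mk.injEq] at h'
    exact finProdFinEquiv.symm.injective (Prod.ext h'.2 h'.1)
  have h := (measurePreserving_toPats M n).comp
    (P157.mp_comp (gaussianReal 0 1) hc : MeasurePreserving _ (P166.gs (n * M)) (P166.gs (M * n)))
  have e : cols (n := n) (M := M)
      = P166.toPats ∘ fun (g : Fin (n * M) → ℝ) (j : Fin (M * n)) => g (c j) := by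
    funext g a
    simp only [cols, Function.comp_apply, P166.toPats, mat, c, Equiv.symm_apply_apply]
  rw [e]
  exact h

theorem trace_cmat (g : Fin (n * M) → ℝ) (k : ℕ) :
    (cmat ε g ^ (k + 1)).trace = (jm (fun _ => ε) (cols g) ^ (k + 1)).trace := by
  rw [jm_cols, cmat, amat, ← Matrix.smul_mul, trace_pow_swap, Matrix.mul_smul]

theorem qf_rot {g : Fin (n * M) → ℝ} {U : Matrix (Fin M) (Fin M) ℝ} (hU' : U * Uᵀ = 1) (k : ℕ)
    (v : Fin M → ℝ) : qf (cmat ε (rot U g) ^ k) v = qf (cmat ε g ^ k) (U *ᵥ v) := by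
  have e : cmat ε (rot U g) = Uᵀ * cmat ε g * U := by
    simp only [cmat, mat_rot, Matrix.transpose_mul, Matrix.mul_smul, Matrix.smul_mul, Matrix.mul_assoc]
  rw [e, conj_pow hU' (mul_eq_one_comm.1 hU'), qf, qf, ← Matrix.mulVec_mulVec, ← Matrix.mulVec_mulVec,
    Matrix.dotProduct_mulVec, Matrix.vecMul_transpose]

/-- A reflection exchanges two vectors of the same length. -/
theorem exists_orth {y y' : Fin M → ℝ} (h : ∑ a, y a ^ 2 = ∑ a, y' a ^ 2) :
    ∃ U : Matrix (Fin M) (Fin M) ℝ, Uᵀ * U = 1 ∧ U * Uᵀ = 1 ∧ U *ᵥ y = y' := by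
  classical
  set u := y - y'
  by_cases hu : u ⬝ᵥ u = 0
  · exact ⟨1, by simp, by simp, by simpa [sub_eq_zero, u] using dotProduct_self_eq_zero.1 hu⟩
  set U : Matrix (Fin M) (Fin M) ℝ := 1 - (2 / (u ⬝ᵥ u)) • Matrix.vecMulVec u u
  have hT : Uᵀ = U := by simp [U, Matrix.transpose_vecMulVec]
  have hUU : U * U = 1 := by
    have e : Matrix.vecMulVec u u * Matrix.vecMulVec u u = (u ⬝ᵥ u) • Matrix.vecMulVec u u := by
      ext i j
      simp only [Matrix.mul_apply, Matrix.vecMulVec_apply, Matrix.smul_apply, dotProduct, smul_eq_mul,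
        Finset.sum_mul]
      exact Finset.sum_congr rfl fun l _ => by ring
    simp only [U, Matrix.mul_sub, Matrix.sub_mul, Matrix.one_mul, Matrix.mul_one, Matrix.smul_mul,
      Matrix.mul_smul, e, smul_smul]
    rw [div_mul_cancel₀ _ hu]
    module
  refine ⟨U, by rw [hT, hUU], by rw [hT, hUU], ?_⟩
  have h2 : 2 * (u ⬝ᵥ y) = u ⬝ᵥ u := by
    have h' : y ⬝ᵥ y = y' ⬝ᵥ y' := by simpa [dotProduct, pow_two] using h
    simp only [u, sub_dotProduct, dotProduct_sub]
    rw [dotProduct_comm y y', ← h']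
    ring
  simp only [U, Matrix.sub_mulVec, Matrix.one_mulVec, Matrix.smul_mulVec, Matrix.vecMulVec_mulVec]
  funext i
  simp only [Pi.sub_apply, Pi.smul_apply, MulOpposite.smul_eq_mul_unop, MulOpposite.unop_op, smul_eq_mul]
  rw [div_mul_eq_mul_div, mul_comm (u i), ← mul_assoc, h2]
  field_simp
  simp [u]

theorem qf_smul (A : Matrix (Fin M) (Fin M) ℝ) (s : ℝ) (v : Fin M → ℝ) :
    qf A (s • v) = s ^ 2 * qf A v := by
  simp only [qf, Matrix.mulVec_smul, smul_dotProduct, dotProduct_smul, smul_eq_mul]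
  ring

theorem cmat_bound (hε : ε ^ 2 = 1) {K : ℝ} (hn : 0 < n) {g : Fin (n * M) → ℝ}
    (hG : Gd K (cols g)) (w : Fin M → ℝ) : |qf (cmat ε g) w| ≤ K * ∑ a, w a ^ 2 := by
  have hn' : (0 : ℝ) < n := by exact_mod_cast hn
  set u := mat g *ᵥ w
  have hu : qf (cmat ε g) w = ε / n * (u ⬝ᵥ u) := by
    simp only [qf, cmat, Matrix.smul_mulVec, dotProduct_smul, smul_eq_mul, ← Matrix.mulVec_mulVec]
    rw [Matrix.dotProduct_mulVec, Matrix.vecMul_transpose]
  have hT := hG u
  have e1 : ∀ a, (cols g a).1 ⬝ᵥ u = ((mat g)ᵀ *ᵥ u) a := fun a => rfl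
  simp only [e1] at hT
  rw [div_le_iff₀ hn'] at hT
  have hcs := Finset.sum_mul_sq_le_sq_mul_sq Finset.univ w ((mat g)ᵀ *ᵥ u)
  have hid : ∑ a, w a * ((mat g)ᵀ *ᵥ u) a = u ⬝ᵥ u := by
    change w ⬝ᵥ ((mat g)ᵀ *ᵥ u) = u ⬝ᵥ u
    rw [Matrix.dotProduct_mulVec, Matrix.vecMul_transpose]
  have hs : ∑ i, u i ^ 2 = u ⬝ᵥ u := by simp [dotProduct, pow_two]
  rw [hid] at hcs
  rw [hs] at hT
  have hε1 : |ε| = 1 := by
    rw [← Real.sqrt_sq_eq_abs, hε, Real.sqrt_one]
  have h0 : 0 ≤ u ⬝ᵥ u := hs ▸ Finset.sum_nonneg fun i _ => sq_nonneg _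
  rw [hu, abs_mul, abs_div, hε1, abs_of_pos hn', abs_of_nonneg h0, div_mul_eq_mul_div, one_mul,
    div_le_iff₀ hn']
  rcases h0.eq_or_lt with h | h
  · rw [← h]
    have hw : 0 ≤ ∑ a, w a ^ 2 := Finset.sum_nonneg fun i _ => sq_nonneg _
    rcases hw.eq_or_lt with hz | hz
    · rw [← hz]; simp
    · have hnn : 0 ≤ K := by
        have := hG fun i => if i = ⟨0, hn⟩ then 1 else 0
        simp only [ite_pow, one_pow, ne_eq, OfNat.ofNat_ne_zero, not_false_eq_true, zero_pow,
          Finset.sum_ite_eq', Finset.mem_univ, if_true, mul_one] at this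
        exact le_trans (by positivity) this
      positivity
  · have := (hcs.trans (mul_le_mul_of_nonneg_left hT (Finset.sum_nonneg fun i _ => sq_nonneg _)))
    refine le_of_mul_le_mul_right ?_ h
    linarith

theorem measurable_cmat_pow (k : ℕ) (a b : Fin M) :
    Measurable fun g : Fin (n * M) → ℝ => (cmat ε g ^ k) a b := by
  induction k generalizing a b with
  | zero => simp only [pow_zero, Matrix.one_apply]; exact measurable_const
  | succ k ih =>
    simp only [pow_succ, Matrix.mul_apply]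
    refine Finset.measurable_sum _ fun l _ => (ih a l).mul ?_
    simp only [cmat, Matrix.smul_apply, Matrix.mul_apply, Matrix.transpose_apply, mat]
    fun_prop

theorem measurable_qf_cmat (k : ℕ) :
    Measurable fun p : (Fin (n * M) → ℝ) × (Fin M → ℝ) => qf (cmat ε p.1 ^ k) p.2 := by
  simp only [qf, dotProduct, Matrix.mulVec]
  refine Finset.measurable_sum _ fun a _ => (by fun_prop : Measurable fun p :
    (Fin (n * M) → ℝ) × (Fin M → ℝ) => p.2 a).mul (Finset.measurable_sum _ fun b _ => ?_)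
  exact ((measurable_cmat_pow k a b).comp measurable_fst).mul (by fun_prop)

/-- Averaging a bound that holds for most points of one factor. -/
theorem avg_le {X Y : Type*} [MeasurableSpace X] [MeasurableSpace Y] {μ : Measure X} {ν : Measure Y}
    [IsProbabilityMeasure μ] [IsProbabilityMeasure ν] {A : Set (X × Y)} (hA : MeasurableSet A)
    {B : Set Y} (hB : MeasurableSet B) {V : Set X} {p a b : ℝ} (hp : 0 ≤ p) (ha : 0 ≤ a)
    (h1 : ∀ z ∉ B, p ≤ μ.real {x | (x, z) ∈ A}) (h2 : ∀ x ∉ V, ν.real {z | (x, z) ∈ A} ≤ a)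
    (h3 : ν.real B ≤ b) : p * (1 - b) ≤ μ.real V + a := by
  classical
  set F : X × Y → ℝ := A.indicator fun _ => 1
  have hF : Integrable F (μ.prod ν) := (integrable_const _).indicator hA
  have eY : ∀ z, ∫ x, F (x, z) ∂μ = μ.real {x | (x, z) ∈ A} := fun z => by
    rw [show (fun x => F (x, z)) = {x | (x, z) ∈ A}.indicator fun _ => (1 : ℝ) by
      funext x; simp [F, Set.indicator_apply]]
    exact (integral_indicator_const (1 : ℝ) (s := {x | (x, z) ∈ A}) (measurable_prodMk_right hA)).trans (by simp)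
  have eX : ∀ x, ∫ z, F (x, z) ∂ν = ν.real {z | (x, z) ∈ A} := fun x => by
    rw [show (fun z => F (x, z)) = {z | (x, z) ∈ A}.indicator fun _ => (1 : ℝ) by
      funext z; simp [F, Set.indicator_apply]]
    exact (integral_indicator_const (1 : ℝ) (s := {z | (x, z) ∈ A}) (measurable_prodMk_left hA)).trans (by simp)
  have iY : Integrable (fun z => μ.real {x | (x, z) ∈ A}) ν := by simpa only [eY] using hF.integral_prod_right
  have iX : Integrable (fun x => ν.real {z | (x, z) ∈ A}) μ := by simpa only [eX] using hF.integral_prod_left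
  have hswap : ∫ z, μ.real {x | (x, z) ∈ A} ∂ν = ∫ x, ν.real {z | (x, z) ∈ A} ∂μ := by
    simp only [← eY, ← eX]
    rw [← integral_prod _ hF, ← integral_prod_symm _ hF]
  have iB : Integrable (fun z => p * B.indicator (fun _ => (1 : ℝ)) z) ν :=
    ((integrable_const _).indicator hB).const_mul p
  have hlo : ∀ z, p - p * B.indicator (fun _ => (1 : ℝ)) z ≤ μ.real {x | (x, z) ∈ A} := fun z => by
    by_cases hz : z ∈ B
    · rw [Set.indicator_of_mem hz, mul_one, sub_self]; exact measureReal_nonneg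
    · rw [Set.indicator_of_notMem hz, mul_zero, sub_zero]; exact h1 z hz
  have iV : Integrable ((toMeasurable μ V).indicator fun _ => (1 : ℝ)) μ :=
    (integrable_const _).indicator (measurableSet_toMeasurable _ _)
  have hhi : ∀ x, ν.real {z | (x, z) ∈ A} ≤ (toMeasurable μ V).indicator (fun _ => (1 : ℝ)) x + a := fun x => by
    by_cases hx : x ∈ toMeasurable μ V
    · rw [Set.indicator_of_mem hx]
      linarith [measureReal_le_one (μ := ν) (s := {z | (x, z) ∈ A})]
    · rw [Set.indicator_of_notMem hx, zero_add]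
      exact h2 x fun h => hx (subset_toMeasurable _ _ h)
  have l1 := integral_mono ((integrable_const p).sub' iB) iY hlo
  have l2 := integral_mono iX (iV.fun_add (integrable_const a)) hhi
  rw [integral_sub (integrable_const p) iB, integral_const_mul, integral_indicator_const _ hB,
    integral_const, probReal_univ, one_smul, smul_eq_mul, mul_one] at l1
  rw [integral_add iV (integrable_const a), integral_indicator_const _ (measurableSet_toMeasurable _ _),
    integral_const, probReal_univ, one_smul, smul_eq_mul, mul_one] at l2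
  have e : μ.real (toMeasurable μ V) = μ.real V := by
    simp only [measureReal_def, measure_toMeasurable]
  have := mul_le_mul_of_nonneg_left h3 hp
  linarith

/-- Quadratic forms of the powers at a fixed vector converge to the moments, uniformly in the vector. -/
theorem quad_conc (hα : 0 < α) (hε : ε ^ 2 = 1) {Mf : ℕ → ℕ}
    (hM : Tendsto (fun n => (Mf n : ℝ) / n) atTop (𝓝 α)) (k : ℕ) {R η δ : ℝ} (hR : 0 < R) (hη : 0 < η)
    (hδ : 0 < δ) :
    ∀ᶠ n : ℕ in atTop, ∀ y : Fin (Mf n) → ℝ, (∑ a, y a ^ 2) / n ≤ R →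
      (P166.gs (n * Mf n)).real {g | η < |qf (cmat ε g ^ (k + 1)) y / n
        - (∑ a, y a ^ 2) / n * (mom α (Measure.dirac 1) (fun _ => ε) (k + 1) / α)|} < δ := by
  have hε1 : ∀ _x : ℝ, |ε| ≤ 1 := fun _ => by rw [← sq_le_one_iff_abs_le_one, hε]
  set c := mom α (Measure.dirac 1) (fun _ => ε) (k + 1) / α
  set η' := η / R
  have hη' : 0 < η' := by positivity
  set θ := min (1 / 2) (η' / (4 + 2 * |c| + η'))
  have hθ : 0 < θ := lt_min (by norm_num) (by positivity)
  have hθ1 : θ ≤ 1 / 2 := min_le_left _ _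
  have hθc : θ * (4 + 2 * |c| + η') ≤ η' := (le_div_iff₀ (by positivity)).1 (min_le_right _ _)
  obtain ⟨K, hK, hgd⟩ := gd_tight (ν := Measure.dirac 1) hM (show 0 < δ / 10 by positivity)
  have htr := trm_tendsto (α := α) (ν := Measure.dirac 1) hε1 measurable_const (k + 1) Mf hM
    (θ * α / 4) (δ / 10) (by positivity) (by positivity)
  have hMn : ∀ᶠ n : ℕ in atTop, |(Mf n : ℝ) / n - α| ≤ min (α / 2) (θ * α / (4 * (|c| + 1))) := by
    have := (hM.sub_const α).abs
    simp only [sub_self, abs_zero] at this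
    exact this.eventually (eventually_le_nhds (lt_min (by positivity) (by positivity)))
  have hbig : ∀ᶠ n : ℕ in atTop,
      20 * (1 + K ^ (2 * (k + 1))) / (θ ^ 2 * δ) < α / 2 * (n : ℝ) :=
    (tendsto_natCast_atTop_atTop.const_mul_atTop (by positivity)).eventually_gt_atTop _
  filter_upwards [hgd, htr, hMn, hbig, eventually_gt_atTop 0] with n h1 h2 h3 h4 hn
  have hn' : (0 : ℝ) < n := by exact_mod_cast hn
  set m := Mf n with hm
  intro y hy
  obtain ⟨h3a, h3b⟩ := le_min_iff.1 h3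
  have hmlow : α / 2 * n ≤ m := by
    have := (abs_le.1 h3a).1
    rw [← le_div_iff₀ hn']; linarith
  have hm0 : (0 : ℝ) < m := lt_of_lt_of_le (by positivity) hmlow
  set μg := P166.gs (n * m)
  set μz := P166.gs m
  set r := (∑ a, y a ^ 2) / n
  set p := μg.real {g | η < |qf (cmat ε g ^ (k + 1)) y / n - r * c|}
  set A : Set ((Fin (n * m) → ℝ) × (Fin m → ℝ)) :=
    {q | η' * (∑ a, q.2 a ^ 2) < |qf (cmat ε q.1 ^ (k + 1)) q.2 - c * ∑ a, q.2 a ^ 2|}
  have hA : MeasurableSet A :=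
    measurableSet_lt (by fun_prop) (((measurable_qf_cmat (k + 1)).sub (by fun_prop)).abs)
  -- rotation invariance
  have hrot : ∀ z : Fin m → ℝ, 0 < ∑ a, z a ^ 2 → p ≤ μg.real {g | (g, z) ∈ A} := fun z hz => by
    set s := √((∑ a, y a ^ 2) / ∑ a, z a ^ 2)
    have hs : s ^ 2 = (∑ a, y a ^ 2) / ∑ a, z a ^ 2 :=
      Real.sq_sqrt (div_nonneg (Finset.sum_nonneg fun a _ => sq_nonneg _) hz.le)
    obtain ⟨U, hU1, hU2, hU⟩ := exists_orth (y := y) (y' := s • z) (by
      simp only [Pi.smul_apply, smul_eq_mul, mul_pow, ← Finset.mul_sum, hs]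
      field_simp)
    have hmeas : MeasurableSet {g : Fin (n * m) → ℝ | η < |qf (cmat ε g ^ (k + 1)) y / n - r * c|} :=
      measurableSet_lt measurable_const
        ((((measurable_qf_cmat (k + 1)).comp measurable_prodMk_right).div_const _).sub_const _).abs
    have hpre : p = μg.real (rot U ⁻¹' {g | η < |qf (cmat ε g ^ (k + 1)) y / n - r * c|}) := by
      simp only [p, μg, measureReal_def]
      rw [(measurePreserving_rot (M := n) U hU1).measure_preimage hmeas.nullMeasurableSet]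
    rw [hpre]
    refine measureReal_mono fun g hg => ?_
    simp only [Set.mem_preimage, Set.mem_ofPred_eq, A] at hg ⊢
    rw [qf_rot hU2, hU, qf_smul, hs] at hg
    by_contra hle
    push Not at hle
    have e : (∑ a, y a ^ 2) / (∑ a, z a ^ 2) * qf (cmat ε g ^ (k + 1)) z / n - r * c
        = r * ((qf (cmat ε g ^ (k + 1)) z - c * ∑ a, z a ^ 2) / ∑ a, z a ^ 2) := by
      simp only [r]; field_simp
    have hr0 : 0 ≤ r := div_nonneg (Finset.sum_nonneg fun a _ => sq_nonneg _) hn'.le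
    rw [e, abs_mul, abs_of_nonneg hr0, abs_div, abs_of_pos hz] at hg
    have h5 : |qf (cmat ε g ^ (k + 1)) z - c * ∑ a, z a ^ 2| / ∑ a, z a ^ 2 ≤ η' := by
      rw [div_le_iff₀ hz]; exact hle
    have h6 : r * (|qf (cmat ε g ^ (k + 1)) z - c * ∑ a, z a ^ 2| / ∑ a, z a ^ 2) ≤ R * η' :=
      mul_le_mul hy h5 (by positivity) hR.le
    have : R * η' = η := by simp only [η']; field_simp
    linarith
  set B : Set (Fin m → ℝ) := {z | θ * m < |(∑ a, z a ^ 2) - m|}
  have hB : MeasurableSet B := measurableSet_lt measurable_const (by fun_prop)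
  set V : Set (Fin (n * m) → ℝ) :=
    {g | ¬ Gd K (cols g)} ∪ {g | θ * α / 4 < |trm (fun _ => ε) (k + 1) (cols g)
      - mom α (Measure.dirac 1) (fun _ => ε) (k + 1)|}
  have hV : μg.real V ≤ δ / 10 + δ / 10 := by
    refine (measureReal_union_le _ _).trans (add_le_add ?_ ?_)
    · refine le_trans (ENNReal.toReal_mono (measure_ne_top _ _) ?_) h1.le
      exact (mp_cols n m).measure_preimage_le {P | ¬ Gd K P}
    · refine le_trans (ENNReal.toReal_mono (measure_ne_top _ _) ?_) h2.le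
      exact (mp_cols n m).measure_preimage_le {P | θ * α / 4 < |trm (fun _ => ε) (k + 1) P
        - mom α (Measure.dirac 1) (fun _ => ε) (k + 1)|}
  have hcheb : ∀ (F : (Fin m → ℝ) → ℝ) (T : ℝ), Integrable (fun z => (F z - T) ^ 2) μz → ∀ D : ℝ,
      ∫ z, (F z - T) ^ 2 ∂μz ≤ 2 * (m * D) → μz.real {z | θ * m < |F z - T|} ≤ 2 * D / (θ ^ 2 * m) :=
    fun F T hi D hD => by
      have h := markov (fun z => sq_nonneg (F z - T)) hi (ε := (θ * m) ^ 2) (by positivity)
      refine (measureReal_mono fun z hz => ?_).trans (h.trans ((div_le_div_of_nonneg_right hD (sq_nonneg _)).trans_eq ?_))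
      · simp only [Set.mem_ofPred_eq] at hz ⊢
        rw [← sq_abs (F z - T)]
        exact pow_le_pow_left₀ (by positivity) hz.le 2
      · field_simp
  have hone : μz.real B ≤ 2 * 1 / (θ ^ 2 * m) := by
    obtain ⟨hi, hv⟩ := qf_var (A := (1 : Matrix (Fin m) (Fin m) ℝ)) Matrix.transpose_one
    have e : ∀ z : Fin m → ℝ, qf 1 z = ∑ a, z a ^ 2 := fun z => by simp [qf, dotProduct, pow_two]
    simp only [e, Matrix.trace_one, Fintype.card_fin] at hi hv
    refine hcheb (fun z => ∑ a, z a ^ 2) m hi 1 (le_of_eq ?_)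
    rw [hv]
    simp [Matrix.one_apply, ite_pow]
  have hquad : ∀ g ∉ V, μz.real {z | θ * m < |qf (cmat ε g ^ (k + 1)) z - (cmat ε g ^ (k + 1)).trace|}
      ≤ 2 * K ^ (2 * (k + 1)) / (θ ^ 2 * m) := fun g hg => by
    have hsym : (cmat ε g ^ (k + 1))ᵀ = cmat ε g ^ (k + 1) := by rw [Matrix.transpose_pow, cmat_symm]
    obtain ⟨hi, hv⟩ := qf_var hsym
    have hG : Gd K (cols g) := Classical.not_not.1 fun h => hg (Or.inl h)
    refine hcheb _ _ hi _ ?_
    rw [hv]
    exact mul_le_mul_of_nonneg_left (pow_facts (cmat_symm g) (cmat_bound hε hn hG) (k + 1)).2 zero_le_two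
  -- section bound
  have hsec : ∀ g ∉ V, μz.real {z | (g, z) ∈ A}
      ≤ 2 * 1 / (θ ^ 2 * m) + 2 * K ^ (2 * (k + 1)) / (θ ^ 2 * m) := fun g hgV => by
    refine le_trans (measureReal_mono (s₂ := B ∪
      {z | θ * m < |qf (cmat ε g ^ (k + 1)) z - (cmat ε g ^ (k + 1)).trace|}) fun z hz => ?_)
      ((measureReal_union_le _ _).trans (add_le_add hone (hquad g hgV)))
    by_contra hc'
    simp only [Set.mem_union, B, Set.mem_ofPred_eq, not_or, not_lt] at hc'
    obtain ⟨hb, hq⟩ := hc'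
    have ht : |(cmat ε g ^ (k + 1)).trace - c * m| ≤ θ * m := by
      have h5 : |trm (fun _ => ε) (k + 1) (cols g) - mom α (Measure.dirac 1) (fun _ => ε) (k + 1)|
          ≤ θ * α / 4 := not_lt.1 fun h => hgV (Or.inr h)
      have h6 : (cmat ε g ^ (k + 1)).trace = n * trm (fun _ => ε) (k + 1) (cols g) := by
        rw [trace_cmat, trm]; field_simp
      have h7 : mom α (Measure.dirac 1) (fun _ => ε) (k + 1) = c * α := by simp only [c]; field_simp
      rw [h7] at h5
      have h8 : |c * α - c * (m / n)| ≤ θ * α / 4 := by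
        rw [← mul_sub, abs_mul, abs_sub_comm]
        refine (mul_le_mul_of_nonneg_left h3b (abs_nonneg c)).trans ?_
        rw [← mul_div_assoc, div_le_div_iff₀ (by positivity) (by norm_num)]
        nlinarith [abs_nonneg c, mul_pos hθ hα]
      have h9 : |trm (fun _ => ε) (k + 1) (cols g) - c * (m / n)| ≤ θ * (α / 2) :=
        (abs_sub_le _ (c * α) _).trans ((add_le_add h5 h8).trans_eq (by ring))
      rw [h6, show c * (m : ℝ) = n * (c * (m / n)) by field_simp, ← mul_sub, abs_mul, abs_of_pos hn']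
      refine (mul_le_mul_of_nonneg_left h9 hn'.le).trans ?_
      linarith [mul_le_mul_of_nonneg_left hmlow hθ.le]
    set S := ∑ a, z a ^ 2
    simp only [A, Set.mem_ofPred_eq] at hz
    have h10 : |qf (cmat ε g ^ (k + 1)) z - c * S| ≤ θ * m + θ * m + |c| * (θ * m) := by
      refine (abs_sub_le _ (cmat ε g ^ (k + 1)).trace _).trans ?_
      rw [add_assoc]
      refine add_le_add hq ((abs_sub_le _ (c * m) _).trans (add_le_add ht ?_))
      rw [← mul_sub, abs_mul, abs_sub_comm]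
      exact mul_le_mul_of_nonneg_left hb (abs_nonneg c)
    have h11 : η' * (m - θ * m) ≤ η' * S := mul_le_mul_of_nonneg_left (by linarith [(abs_le.1 hb).1]) hη'.le
    have h12 := mul_le_mul_of_nonneg_right hθc hm0.le
    have h13 : 0 ≤ |c| * (θ * m) := by positivity
    linarith [mul_pos hθ hm0]
  -- averaging
  have hlow := avg_le (μ := μg) (ν := μz) (p := p) hA hB measureReal_nonneg (by positivity)
    (fun z hz => hrot z (by
      simp only [B, Set.mem_ofPred_eq, not_lt] at hz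
      nlinarith [(abs_le.1 hz).1])) hsec hone
  have hp1 : p ≤ 1 := measureReal_le_one
  have hX : (2 * 1 + 2 * K ^ (2 * (k + 1))) / (θ ^ 2 * (m : ℝ)) ≤ δ / 5 := by
    rw [div_le_iff₀ (by positivity)]
    rw [div_lt_iff₀ (by positivity)] at h4
    nlinarith [mul_le_mul_of_nonneg_left hmlow (show (0 : ℝ) ≤ θ ^ 2 * δ by positivity),
      pow_nonneg (zero_le_one.trans hK) (2 * (k + 1))]
  rw [add_div] at hX
  have hK0 : 0 ≤ 2 * K ^ (2 * (k + 1)) / (θ ^ 2 * (m : ℝ)) := by positivity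
  have hbp : p * (2 * 1 / (θ ^ 2 * (m : ℝ))) ≤ 1 * (δ / 5) :=
    mul_le_mul hp1 (by linarith) (by positivity) zero_le_one
  linarith

/-- A polynomial trial vector. -/
theorem exists_witness (hε : ε ^ 2 = 1) (hn : 0 < n) (ℓ : ℝ) (p : Polynomial ℝ) (g : Fin (n * M) → ℝ)
    (y : Fin M → ℝ)
    (hpos : 0 < ε * ((∑ a, y a ^ 2) / n) - ℓ
      + ∑ k ∈ range ((2 * p - (Polynomial.C ℓ - X) * p ^ 2).natDegree + 1),
          (2 * p - (Polynomial.C ℓ - X) * p ^ 2).coeff k * (ε * (qf (cmat ε g ^ (k + 1)) y / n))) :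
    ∃ z : Fin n → ℝ, ℓ * (1 + ∑ i, z i ^ 2) < ε * (∑ a, (y a + ((mat g)ᵀ *ᵥ z) a) ^ 2) / n := by
  have hn' : (0 : ℝ) < n := by exact_mod_cast hn
  set Y := mat g
  set A := amat ε g
  set b : Fin n → ℝ := (ε / n) • (Y *ᵥ y)
  set P : Matrix (Fin n) (Fin n) ℝ := Polynomial.aeval A p
  set Q := 2 * p - (Polynomial.C ℓ - X) * p ^ 2
  refine ⟨P *ᵥ b, ?_⟩
  have hPT : Pᵀ = P := by
    simp only [P, Polynomial.aeval_eq_sum_range, Matrix.transpose_sum, Matrix.transpose_smul,
      Matrix.transpose_pow, A, amat_symm]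
  set z := P *ᵥ b
  have hYY : ∀ k : ℕ, Yᵀ * A ^ k * Y = (ε * (n : ℝ)) • cmat ε g ^ (k + 1) := fun k => by
    have hb : Yᵀ * Y = (ε * (n : ℝ)) • cmat ε g := by
      rw [cmat, smul_smul, show ε * (n : ℝ) * (ε / n) = 1 by field_simp; exact hε, one_smul]
    have hcomm : ∀ k : ℕ, Yᵀ * A ^ k = cmat ε g ^ k * Yᵀ := fun k => by
      induction k with
      | zero => simp
      | succ k ih =>
        rw [pow_succ, ← Matrix.mul_assoc, ih, pow_succ, Matrix.mul_assoc, Matrix.mul_assoc]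
        congr 1
        simp only [A, amat, cmat, Y, Matrix.mul_smul, Matrix.smul_mul, Matrix.mul_assoc]
    rw [hcomm, Matrix.mul_assoc, hb, Matrix.mul_smul, pow_succ]
  have hbk : ∀ k : ℕ, b ⬝ᵥ (A ^ k *ᵥ b) = ε * (qf (cmat ε g ^ (k + 1)) y / n) := fun k => by
    have h : (Y *ᵥ y) ⬝ᵥ (A ^ k *ᵥ (Y *ᵥ y)) = ε * n * qf (cmat ε g ^ (k + 1)) y := by
      rw [dotProduct_comm, Matrix.dotProduct_mulVec, ← Matrix.mulVec_transpose, dotProduct_comm,
        Matrix.mulVec_mulVec, Matrix.mulVec_mulVec, hYY, Matrix.smul_mulVec,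
        dotProduct_smul, smul_eq_mul, qf]
    simp only [b, Matrix.mulVec_smul, smul_dotProduct, dotProduct_smul, smul_eq_mul, h]
    field_simp
    linear_combination (qf (cmat ε g ^ (k + 1)) y) * ε * hε
  have hQ : b ⬝ᵥ (Polynomial.aeval A Q *ᵥ b)
      = ∑ k ∈ range (Q.natDegree + 1), Q.coeff k * (ε * (qf (cmat ε g ^ (k + 1)) y / n)) := by
    simp only [Polynomial.aeval_eq_sum_range, Matrix.sum_mulVec, dotProduct_sum, Matrix.smul_mulVec,
      dotProduct_smul, smul_eq_mul, hbk]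
  have hsum : ∑ a, (y a + (Yᵀ *ᵥ z) a) ^ 2
      = ∑ a, y a ^ 2 + 2 * ((Y *ᵥ y) ⬝ᵥ z) + z ⬝ᵥ ((Y * Yᵀ) *ᵥ z) := by
    have e1 : (Y *ᵥ y) ⬝ᵥ z = ∑ a, y a * (Yᵀ *ᵥ z) a := by
      change _ = y ⬝ᵥ (Yᵀ *ᵥ z)
      rw [Matrix.dotProduct_mulVec y, Matrix.vecMul_transpose]
    have e2 : z ⬝ᵥ ((Y * Yᵀ) *ᵥ z) = ∑ a, (Yᵀ *ᵥ z) a ^ 2 := by
      rw [← Matrix.mulVec_mulVec, Matrix.dotProduct_mulVec, ← Matrix.mulVec_transpose]
      simp [dotProduct, pow_two]
    rw [e1, e2, Finset.mul_sum, ← Finset.sum_add_distrib, ← Finset.sum_add_distrib]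
    exact Finset.sum_congr rfl fun a _ => by ring
  have hkey : ε * (∑ a, (y a + (Yᵀ *ᵥ z) a) ^ 2) / n - ℓ * (1 + ∑ i, z i ^ 2)
      = ε * ((∑ a, y a ^ 2) / n) - ℓ + b ⬝ᵥ (Polynomial.aeval A Q *ᵥ b) := by
    have e3 : b ⬝ᵥ z = ε / n * ((Y *ᵥ y) ⬝ᵥ z) := by simp [b, smul_dotProduct]
    have e4 : z ⬝ᵥ (A *ᵥ z) = ε / n * (z ⬝ᵥ ((Y * Yᵀ) *ᵥ z)) := by
      simp [A, amat, Y, Matrix.smul_mulVec, dotProduct_smul]
    have e5 : ∀ T : Matrix (Fin n) (Fin n) ℝ, z ⬝ᵥ (T *ᵥ z) = b ⬝ᵥ ((P * T * P) *ᵥ b) := fun T => by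
      rw [← Matrix.mulVec_mulVec, ← Matrix.mulVec_mulVec]
      conv_rhs => rw [Matrix.dotProduct_mulVec, ← Matrix.mulVec_transpose, hPT]
    have e6 : ∑ i, z i ^ 2 = z ⬝ᵥ ((1 : Matrix (Fin n) (Fin n) ℝ) *ᵥ z) := by simp [dotProduct, pow_two]
    have e7 : Polynomial.aeval A Q = 2 • P - (ℓ • (P * 1 * P) - P * A * P) := by
      have hAP : Commute A P := by
        simp only [P]
        have h := (Commute.all (X : ℝ[X]) p).map (Polynomial.aeval A)
        rwa [Polynomial.aeval_X] at h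
      simp only [Q, map_sub, map_mul, map_pow, map_ofNat, Polynomial.aeval_C, Polynomial.aeval_X,
        Algebra.algebraMap_eq_smul_one, P]
      rw [pow_two, sub_mul, Matrix.smul_mul, Matrix.one_mul, Matrix.mul_one, ← Matrix.mul_assoc,
        hAP.eq, two_mul, two_smul]
    rw [e7]
    simp only [Matrix.sub_mulVec, dotProduct_sub, Matrix.smul_mulVec, dotProduct_smul, ← e5, smul_eq_mul,
      ← e6, e4, hsum]
    rw [two_smul]
    change _ = _ + (b ⬝ᵥ z + b ⬝ᵥ z - _)
    rw [e3]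
    ring
  rw [hQ] at hkey
  linarith

/-- Outliers below the spike value occur with probability at least one half. -/
theorem spike_prob (hα : 0 < α) (hε : ε ^ 2 = 1) (hs : 0 < √α + ε) {lam t : ℝ}
    (hlam : 0 ≤ 1 + lam) (ht : 0 < t) (ht' : t * (√α + ε) < 1)
    (hgap : 1 < ε * lam * α * t / (1 - ε * t)) {Mf : ℕ → ℕ}
    (hM : Tendsto (fun n => (Mf n : ℝ) / n) atTop (𝓝 α)) :
    ∃ η : ℝ, 0 < η ∧ ∀ᶠ n : ℕ in atTop, ∀ y : Fin (Mf n) → ℝ,
      |(∑ a, y a ^ 2) / n - α * (1 + lam)| ≤ η →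
      (1 : ℝ) / 2 ≤ (P166.gs (n * Mf n)).real {g | ∃ z : Fin n → ℝ,
        phi α ε t * (1 + ∑ i, z i ^ 2) < ε * (∑ a, (y a + ((mat g)ᵀ *ᵥ z) a) ^ 2) / n} := by
  have hε1 : ∀ _x : ℝ, |ε| ≤ 1 := fun _ => by rw [← sq_le_one_iff_abs_le_one, hε]
  obtain ⟨μ, C, e, hμ, heC⟩ := exists_law (ν := Measure.dirac (1 : ℝ)) hα.le hε1 measurable_const
  have hC : 0 ≤ C := (abs_nonneg e).trans heC
  obtain ⟨heℓ, hA⟩ := stieltjes_const hα hε hs hC hμ ht ht'
  set ℓ := phi α ε t
  have := hμ.prob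
  have hden : 0 < 1 - ε * t := by
    nlinarith [mul_pos ht (Real.sqrt_pos.2 hα)]
  -- the value at the exact resolvent
  set r₀ := α * (1 + lam)
  set I := ∫ x, x * (ℓ - x)⁻¹ ∂μ
  obtain ⟨hi, -, -⟩ := stieltjes_bounds hμ heℓ
  have hI : I = ℓ * t - 1 := by
    have e1 : ∀ᵐ x ∂μ, x * (ℓ - x)⁻¹ = ℓ * (ℓ - x)⁻¹ - 1 := hμ.le_top.mono fun x hx => by
      have : ℓ - x ≠ 0 := by linarith
      field_simp; ring
    simp only [I]
    rw [integral_congr_ae e1, integral_sub (hi.const_mul ℓ) (integrable_const _), integral_const_mul, hA]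
    simp
  have hval : 0 < ε * r₀ - ℓ + ε * (r₀ / α) * I := by
    have e2 : ε * r₀ - ℓ + ε * (r₀ / α) * I = (ε * lam * α * t / (1 - ε * t) - 1) / t := by
      rw [hI]
      simp only [r₀, ℓ, phi]
      field_simp
      linear_combination (α * t * (1 + lam) * (1 - ε * t) * 0) * hε
    rw [e2]
    exact div_pos (by linarith) ht
  set V := ε * r₀ - ℓ + ε * (r₀ / α) * I
  -- polynomial approximation
  set G : ℝ → ℝ := fun x => (ℓ - min x e)⁻¹
  have hGc : Continuous G :=
    (continuous_const.sub (continuous_id.min continuous_const)).inv₀ fun x => by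
      exact ne_of_gt (by simp only [id, Pi.sub_apply]; linarith [min_le_right x e])
  set W := C * (|ℓ| + C)
  have hW : 0 ≤ W := by positivity
  set δ := min 1 (V / (8 * (W + 1) * (r₀ / α + 1)))
  have hr₀ : 0 ≤ r₀ := mul_nonneg hα.le hlam
  have hδ : 0 < δ := lt_min one_pos (by positivity)
  obtain ⟨p, hp⟩ := exists_polynomial_near_of_continuousOn (-C) C G hGc.continuousOn δ hδ
  set Q := 2 * p - (Polynomial.C ℓ - X) * p ^ 2
  set J := ∫ x, x * Q.eval x ∂μ
  have hJI : |J - I| ≤ W * δ := by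
    have iJ : Integrable (fun x => x * Q.eval x) μ := hμ.integrable (by fun_prop)
    have iI : Integrable (fun x => x * (ℓ - x)⁻¹) μ :=
      (hμ.integrable (show Continuous fun x => x * G x by fun_prop)).congr (hμ.le_top.mono fun x hx => by
        simp [G, min_eq_left hx])
    simp only [J, I]
    rw [← integral_sub iJ iI, ← Real.norm_eq_abs]
    refine (norm_integral_le_of_norm_le_const (C := W * δ) ?_).trans_eq (by simp)
    filter_upwards [hμ.supp, hμ.le_top] with x h1 h2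
    have h3 : ℓ - x ≠ 0 := by linarith
    have h4 : (p.eval x - (ℓ - x)⁻¹) = p.eval x - G x := by simp [G, min_eq_left h2]
    have e3 : x * Q.eval x - x * (ℓ - x)⁻¹ = -(x * (ℓ - x)) * (p.eval x - (ℓ - x)⁻¹) ^ 2 := by
      simp only [Q, Polynomial.eval_sub, Polynomial.eval_mul, Polynomial.eval_pow, Polynomial.eval_ofNat,
        Polynomial.eval_C, Polynomial.eval_X]
      field_simp
      ring
    rw [Real.norm_eq_abs, e3, h4, abs_mul, abs_neg, abs_mul, abs_pow]
    have h5 := hp x (abs_le.1 h1)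
    have h6 : |ℓ - x| ≤ |ℓ| + C := (abs_sub _ _).trans (by linarith)
    have h7 : |p.eval x - G x| ^ 2 ≤ δ * 1 := by
      rw [pow_two]; exact mul_le_mul h5.le (h5.le.trans (min_le_left _ _)) (abs_nonneg _) hδ.le
    rw [mul_one] at h7
    exact mul_le_mul (mul_le_mul h1 h6 (abs_nonneg _) hC) h7 (by positivity) hW
  have hJ : 7 / 8 * V ≤ ε * r₀ - ℓ + ε * (r₀ / α) * J := by
    have h1 : |ε * (r₀ / α) * (J - I)| ≤ V / 8 := by
      rw [abs_mul, abs_mul, abs_of_nonneg (show 0 ≤ r₀ / α by positivity)]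
      have h2 : δ * (8 * (W + 1) * (r₀ / α + 1)) ≤ V :=
        (le_div_iff₀ (by positivity)).1 (min_le_right _ _)
      calc |ε| * (r₀ / α) * |J - I| ≤ 1 * (r₀ / α + 1) * ((W + 1) * δ) := by
            gcongr
            · exact hε1 0
            · linarith
            · exact hJI.trans (mul_le_mul_of_nonneg_right (by linarith) hδ.le)
        _ ≤ V / 8 := by linarith
    have := (abs_le.1 h1).1
    simp only [V] at this ⊢
    linarith
  have hJsum : J = ∑ k ∈ range (Q.natDegree + 1), Q.coeff k * mom α (Measure.dirac 1) (fun _ => ε) (k + 1) := by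
    simp only [J, Polynomial.eval_eq_sum_range, Finset.mul_sum]
    rw [integral_finsetSum _ fun k _ => hμ.integrable (by fun_prop)]
    refine Finset.sum_congr rfl fun k _ => ?_
    rw [← hμ.moments (k + 1), ← integral_const_mul]
    exact integral_congr_ae (ae_of_all _ fun x => by ring)
  set L := |ε * (1 + 1 / α * J)| + 1
  set η := min 1 (V / (8 * L))
  have hη : 0 < η := lt_min one_pos (by positivity)
  have hηL : η * (8 * L) ≤ V := (le_div_iff₀ (by positivity)).1 (min_le_right _ _)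
  set S := (∑ k ∈ range (Q.natDegree + 1), |Q.coeff k|) + 1
  have hS : 0 < S := by positivity
  refine ⟨η, hη, ?_⟩
  set d := 1 / (4 * ((Q.natDegree : ℝ) + 1))
  have hev : ∀ k ∈ range (Q.natDegree + 1), ∀ᶠ n : ℕ in atTop, ∀ y : Fin (Mf n) → ℝ,
      (∑ a, y a ^ 2) / n ≤ r₀ + 1 → (P166.gs (n * Mf n)).real {g | V / (8 * S)
        < |qf (cmat ε g ^ (k + 1)) y / n
          - (∑ a, y a ^ 2) / n * (mom α (Measure.dirac 1) (fun _ => ε) (k + 1) / α)|} < d := fun k _ =>
    quad_conc hα hε hM k (by linarith) (by positivity) (by positivity)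
  filter_upwards [(eventually_all_finset _).2 hev, eventually_gt_atTop 0] with n hn hn0 y hy
  set r := (∑ a, y a ^ 2) / n
  have hr : r ≤ r₀ + 1 := by linarith [(abs_le.1 hy).2, min_le_left 1 (V / (8 * L))]
  set Bk : ℕ → Set (Fin (n * Mf n) → ℝ) := fun k => {g | V / (8 * S)
    < |qf (cmat ε g ^ (k + 1)) y / n - r * (mom α (Measure.dirac 1) (fun _ => ε) (k + 1) / α)|}
  have hbad : (P166.gs (n * Mf n)).real (⋃ k ∈ range (Q.natDegree + 1), Bk k) ≤ 1 / 4 := by
    refine (measureReal_biUnion_finset_le _ _).trans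
      ((Finset.sum_le_sum fun k hk => (hn k hk y hr).le).trans_eq ?_)
    simp only [d, Finset.sum_const, Finset.card_range, nsmul_eq_mul, Nat.cast_add, Nat.cast_one]
    field_simp
  have hsub : (⋃ k ∈ range (Q.natDegree + 1), Bk k)ᶜ ⊆ {g | ∃ z : Fin n → ℝ,
      ℓ * (1 + ∑ i, z i ^ 2) < ε * (∑ a, (y a + ((mat g)ᵀ *ᵥ z) a) ^ 2) / n} := fun g hg => by
    simp only [Set.mem_compl_iff, Set.mem_iUnion, Bk, Set.mem_ofPred_eq, not_exists, not_lt] at hg
    have hval' : 0 < ε * r - ℓ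
        + ∑ k ∈ range (Q.natDegree + 1), Q.coeff k * (ε * (qf (cmat ε g ^ (k + 1)) y / n)) := by
      have h1 : |∑ k ∈ range (Q.natDegree + 1), Q.coeff k * (ε * (qf (cmat ε g ^ (k + 1)) y / n))
          - ε * (r / α) * J| ≤ V / 8 := by
        rw [hJsum, Finset.mul_sum, ← Finset.sum_sub_distrib]
        refine (Finset.abs_sum_le_sum_abs _ _).trans ((Finset.sum_le_sum
          (g := fun k => |Q.coeff k| * (V / (8 * S))) fun k hk => ?_).trans ?_)
        · rw [show Q.coeff k * (ε * (qf (cmat ε g ^ (k + 1)) y / n))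
              - ε * (r / α) * (Q.coeff k * mom α (Measure.dirac 1) (fun _ => ε) (k + 1))
              = Q.coeff k * (ε * (qf (cmat ε g ^ (k + 1)) y / n
                - r * (mom α (Measure.dirac 1) (fun _ => ε) (k + 1) / α))) by ring, abs_mul, abs_mul]
          refine mul_le_mul_of_nonneg_left ?_ (abs_nonneg _)
          exact (mul_le_mul (hε1 0) (hg k hk) (abs_nonneg _) zero_le_one).trans_eq (one_mul _)
        · rw [← Finset.sum_mul, ← mul_div_assoc, div_le_div_iff₀ (by positivity) (by norm_num)]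
          simp only [S]
          linarith [mul_pos hval (show (0 : ℝ) < 8 by norm_num)]
      have h2 : |(ε * r + ε * (r / α) * J) - (ε * r₀ + ε * (r₀ / α) * J)| ≤ V / 8 := by
        rw [show (ε * r + ε * (r / α) * J) - (ε * r₀ + ε * (r₀ / α) * J)
          = (ε * (1 + 1 / α * J)) * (r - r₀) by ring, abs_mul]
        have : |ε * (1 + 1 / α * J)| * |r - r₀| ≤ L * η :=
          mul_le_mul (le_add_of_nonneg_right zero_le_one) hy (abs_nonneg _) (by positivity)
        linarith
      linarith [(abs_le.1 h1).1, (abs_le.1 h2).1]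
    -- the trial vector
    exact exists_witness hε hn0 ℓ p g y hval'
  have hmeas : MeasurableSet (⋃ k ∈ range (Q.natDegree + 1), Bk k) :=
    Finset.measurableSet_biUnion _ fun k _ => measurableSet_lt measurable_const
      ((((measurable_qf_cmat (k + 1)).comp measurable_prodMk_right).div_const _).sub_const _).abs
  have := measureReal_mono (μ := P166.gs (n * Mf n)) hsub
  rw [measureReal_compl hmeas, probReal_univ] at this
  linarith

end Vale.Agent.P157.Threshold
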