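import Vale.Agent.P166.Free.Sharp
import Vale.Agent.P166.Free.Limit
import Vale.Agent.P157.Threshold.Moment
import Vale.Agent.P157.Threshold.Conc
import Vale.Agent.P157.Threshold.Spike

/-!
Above the second-chaos threshold the planted patterns have an outlier outside the null spectrum,
so the pressure stays strictly below the annealed value.
-/

open MeasureTheory ProbabilityTheory Filter Topology Matrix Finset

namespace Vale.Agent.P157.Threshold

open Vale.Agent.P166 (mat)
open Vale.Agent.P166.Free (exists_law IsLaw top_prob jm jm_qf qf gs_rot)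

variable {f : ℝ → ℝ} {B α ε : ℝ}

/-- No direction beats the level `ℓ`. -/
def calm (ε ℓ : ℝ) (N M : ℕ) : Set (Fin M → Fin N → ℝ) :=
  {G | ∀ v : Fin N → ℝ, ε * (∑ a, (G a ⬝ᵥ v) ^ 2) / N ≤ ℓ * ∑ i, v i ^ 2}

theorem measurableSet_calm (ε ℓ : ℝ) (N M : ℕ) : MeasurableSet (calm ε ℓ N M) := by
  have : calm ε ℓ N M = ⋂ v : Fin N → ℝ, {G | ε * (∑ a, (G a ⬝ᵥ v) ^ 2) / N ≤ ℓ * ∑ i, v i ^ 2} := by
    ext G; simp [calm]
  rw [this]
  refine (isClosed_iInter fun v => isClosed_le ?_ continuous_const).measurableSet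
  simp only [dotProduct]
  fun_prop

/-- Weight of patterns with the first coordinate planted. -/
noncomputable def wpl (f : ℝ → ℝ) {M : ℕ} (y : Fin M → ℝ) : ℝ := ∏ a, Real.exp (f (y a))

theorem wpl_le (hB : ∀ x, |f x| ≤ B) {M : ℕ} (y : Fin M → ℝ) : 0 ≤ wpl f y ∧ wpl f y ≤ Real.exp (M * B) := by
  refine ⟨Finset.prod_nonneg fun a _ => (Real.exp_pos _).le, ?_⟩
  rw [wpl, ← Real.exp_sum]
  exact Real.exp_le_exp.2 (abs_le.1 (abs_sum_f_le hB y)).2

/-- The planted mass of the calm event does not depend on the planted configuration. -/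
theorem calm_moment (hfm : Measurable f) (hB : ∀ x, |f x| ≤ B) (ℓ : ℝ) {n M : ℕ} :
    ∫ G, (calm ε ℓ (n + 1) M).indicator (fun G => zf f G) G ∂pats (n + 1) M
      = ∫ G, (calm ε ℓ (n + 1) M).indicator (fun G => wpl f fun a => G a 0) G ∂pats (n + 1) M := by
  classical
  set Bs := calm ε ℓ (n + 1) M
  have hBs : MeasurableSet Bs := measurableSet_calm _ _ _ _
  set F : (Fin (n + 1) → Bool) → (Fin M → Fin (n + 1) → ℝ) → ℝ := fun σ =>
    Bs.indicator fun G => Real.exp (∑ a, f (fld (G a) σ))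
  have hiF : ∀ σ, Integrable (F σ) (pats (n + 1) M) := fun σ => by
    refine Integrable.indicator (Integrable.of_bound ?_ (Real.exp (M * B)) (ae_of_all _ fun G => ?_)) hBs
    · exact Measurable.aestronglyMeasurable (by unfold fld; fun_prop)
    · rw [Real.norm_eq_abs, Real.abs_exp]; exact Real.exp_le_exp.2 (abs_le.1 (abs_sum_f_le hB _)).2
  have heach : ∀ σ, ∫ G, F σ G ∂pats (n + 1) M
      = ∫ G, Bs.indicator (fun G => wpl f fun a => G a 0) G ∂pats (n + 1) M := fun σ => by
    obtain ⟨U, hU1, hU2, hU⟩ := exists_orth (y := dir σ) (y' := Pi.single (0 : Fin (n + 1)) 1)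
      (by rw [sum_dir (Nat.succ_pos n) σ]; simp [Pi.single_apply, ite_pow])
    have hmp : MeasurePreserving (fun (G : Fin M → Fin (n + 1) → ℝ) a => G a ᵥ* U)
        (pats (n + 1) M) (pats (n + 1) M) :=
      measurePreserving_pi (fun _ : Fin M => gs (n + 1)) (fun _ : Fin M => gs (n + 1))
        (f := fun _ g => g ᵥ* U) fun _ => gs_rot hU1
    conv_lhs => rw [← hmp.map_eq]
    rw [integral_map hmp.measurable.aemeasurable (by rw [hmp.map_eq]; exact (hiF σ).aestronglyMeasurable)]
    refine integral_congr_ae (ae_of_all _ fun G => ?_)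
    have hfld : ∀ a, fld (G a ᵥ* U) σ = G a 0 := fun a => by
      rw [fld_dir]
      change (G a ᵥ* U) ⬝ᵥ dir σ = G a 0
      rw [← Matrix.dotProduct_mulVec, hU, dotProduct_single, mul_one]
    have hiso : ∀ (W : Matrix (Fin (n + 1)) (Fin (n + 1)) ℝ), Wᵀ * W = 1 → ∀ v,
        ∑ i, (W *ᵥ v) i ^ 2 = ∑ i, v i ^ 2 := fun W hW v => by
      have e : (W *ᵥ v) ⬝ᵥ (W *ᵥ v) = v ⬝ᵥ v := by
        rw [Matrix.dotProduct_mulVec, ← Matrix.mulVec_transpose, Matrix.mulVec_mulVec, hW, Matrix.one_mulVec]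
      simpa [dotProduct, pow_two] using e
    have hmem : (fun a => G a ᵥ* U) ∈ Bs ↔ G ∈ Bs := by
      constructor <;> intro h v
      · have := h (Uᵀ *ᵥ v)
        simp only [← Matrix.dotProduct_mulVec, Matrix.mulVec_mulVec, hU2, Matrix.one_mulVec,
          hiso Uᵀ (by rw [Matrix.transpose_transpose]; exact hU2)] at this
        exact this
      · have := h (U *ᵥ v)
        simp only [← Matrix.dotProduct_mulVec]
        rwa [hiso U hU1] at this
    simp only [F, Set.indicator_apply, hmem, hfld, wpl, Real.exp_sum]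
  have e : ∀ G, Bs.indicator (fun G => zf f G) G = ((2 : ℝ) ^ (n + 1))⁻¹ * ∑ σ, F σ G := fun G => by
    by_cases hG : G ∈ Bs
    · simp [F, Set.indicator_of_mem hG, zf]
    · simp [F, Set.indicator_of_notMem hG]
  simp only [e]
  rw [integral_const_mul, integral_finsetSum _ fun σ _ => hiF σ]
  simp [heach]

/-- Patterns from a planted column and the other coordinates. -/
noncomputable def mk {n M : ℕ} (p : (Fin M → ℝ) × (Fin (n * M) → ℝ)) (a : Fin M) : Fin (n + 1) → ℝ :=
  Fin.cons (p.1 a) fun i => mat p.2 i a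

theorem mp_mk (n M : ℕ) :
    MeasurePreserving (mk (n := n) (M := M)) ((P166.gs M).prod (P166.gs (n * M))) (pats (n + 1) M) := by
  set c : Fin (M * n) → Fin (n * M) := fun j =>
    finProdFinEquiv ((finProdFinEquiv.symm j).2, (finProdFinEquiv.symm j).1)
  have hc : Function.Injective c := fun i j h => by
    have h' := finProdFinEquiv.injective h
    simp only [Prod.mk.injEq] at h'
    exact finProdFinEquiv.symm.injective (Prod.ext h'.2 h'.1)
  have h0 : MeasurePreserving (fun (g : Fin (n * M) → ℝ) a i => mat g i a) (P166.gs (n * M))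
      (Measure.pi fun _ : Fin M => P166.gs n) := by
    have h := (P166.measurePreserving_mat M n).comp
      (P157.mp_comp (gaussianReal 0 1) hc : MeasurePreserving _ (P166.gs (n * M)) (P166.gs (M * n)))
    have e : (fun (g : Fin (n * M) → ℝ) a i => mat g i a)
        = (fun (g : Fin (M * n) → ℝ) a i => mat g a i) ∘ fun g j => g (c j) := by
      funext g a i
      simp only [Function.comp_apply, mat, c, Equiv.symm_apply_apply]
    rw [e]; exact h
  have h1 := (MeasurePreserving.id (P166.gs M)).prod h0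
  have h2 := (measurePreserving_arrowProdEquivProdArrow ℝ (Fin n → ℝ) (Fin M) (fun _ => gaussianReal 0 1)
    (fun _ => P166.gs n)).symm
  have h3 : MeasurePreserving (fun (F : Fin M → ℝ × (Fin n → ℝ)) a => (Fin.cons (F a).1 (F a).2 : Fin (n + 1) → ℝ))
      (Measure.pi fun _ : Fin M => (gaussianReal 0 1).prod (P166.gs n)) (pats (n + 1) M) :=
    measurePreserving_pi _ (fun _ : Fin M => gs (n + 1))
      (f := fun _ (p : ℝ × (Fin n → ℝ)) => (Fin.cons p.1 p.2 : Fin (n + 1) → ℝ)) fun _ => by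
        have h := (measurePreserving_piFinSuccAbove (fun _ : Fin (n + 1) => gaussianReal 0 1) 0).symm
        have e : (fun p : ℝ × (Fin n → ℝ) => (Fin.cons p.1 p.2 : Fin (n + 1) → ℝ))
            = (MeasurableEquiv.piFinSuccAbove (fun _ : Fin (n + 1) => ℝ) 0).symm := by
          funext p; simp [MeasurableEquiv.piFinSuccAbove, Fin.insertNthEquiv]
        rw [e]; exact h
  exact (h3.comp h2).comp h1

/-- Two separated levels force separated matrices. -/
theorem sep {ε ℓ ℓ' A D : ℝ} (hε : ε ^ 2 = 1) (hA : 0 ≤ A) (hD : 0 ≤ D)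
    (h1 : ε * A ^ 2 ≤ ℓ) (h2 : ℓ' < ε * D ^ 2) :
    min 1 ((ℓ' - ℓ) / (2 * √(|ℓ| + |ℓ'|) + 1)) ≤ |A - D| := by
  rcases le_or_gt 1 |A - D| with h | h
  · exact (min_le_left _ _).trans h
  refine (min_le_right _ _).trans ?_
  rw [div_le_iff₀ (by positivity)]
  have hε1 : |ε| = 1 := by rw [← Real.sqrt_sq_eq_abs, hε, Real.sqrt_one]
  have hgap : ℓ' - ℓ ≤ |A - D| * (A + D) := by
    have h3 : ε * (D ^ 2 - A ^ 2) ≤ |A - D| * (A + D) := by
      refine (le_abs_self _).trans_eq ?_
      rw [abs_mul, hε1, one_mul, show D ^ 2 - A ^ 2 = -((A - D) * (A + D)) by ring, abs_neg, abs_mul,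
        abs_of_nonneg (add_nonneg hA hD)]
    linarith
  refine hgap.trans (mul_le_mul_of_nonneg_left ?_ (abs_nonneg _))
  set T := √(|ℓ| + |ℓ'|)
  have hsmall : A ≤ T ∨ D ≤ T := by
    rcases eq_or_eq_neg_of_sq_eq_sq ε 1 (by rw [hε, one_pow]) with he | he
    · refine Or.inl (Real.le_sqrt_of_sq_le ?_)
      rw [he, one_mul] at h1
      linarith [le_abs_self ℓ, abs_nonneg ℓ']
    · refine Or.inr (Real.le_sqrt_of_sq_le ?_)
      rw [he] at h2
      linarith [neg_le_abs ℓ', abs_nonneg ℓ]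
  obtain ⟨g1, g2⟩ := abs_lt.1 h
  rcases hsmall with h' | h' <;> linarith

/-- Exponential bound for one side of the planted radius. -/
theorem tail_le (hfm : Measurable f) (hB : ∀ x, |f x| ≤ B) {e A s ρ : ℝ} (hs : 0 < s)
    (hi : Integrable (fun x => Real.exp (f x) * Real.exp (s * (e * (x ^ 2 - A)))) (gaussianReal 0 1))
    (hle : ∫ x, Real.exp (f x) * Real.exp (s * (e * (x ^ 2 - A))) ∂gaussianReal 0 1 ≤ ρ) (M : ℕ)
    {T : Set (Fin M → ℝ)} (hTm : MeasurableSet T) (hT : ∀ y ∈ T, 0 ≤ ∑ a, e * (y a ^ 2 - A)) :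
    ∫ y, T.indicator (wpl f) y ∂P166.gs M ≤ ρ ^ M := by
  set k : ℝ → ℝ := fun x => Real.exp (f x) * Real.exp (s * (e * (x ^ 2 - A)))
  have hwm : Measurable (wpl f (M := M)) := by unfold wpl; fun_prop
  have i1 : Integrable (T.indicator (wpl f)) (P166.gs M) :=
    (Integrable.of_bound hwm.aestronglyMeasurable (Real.exp (M * B)) (ae_of_all _ fun y => by
      rw [Real.norm_eq_abs, abs_of_nonneg (wpl_le hB y).1]; exact (wpl_le hB y).2)).indicator hTm
  have i2 : Integrable (fun y : Fin M → ℝ => ∏ a, k (y a)) (P166.gs M) := Integrable.fintype_prod fun _ => hi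
  have hpt : ∀ y, T.indicator (wpl f) y ≤ ∏ a, k (y a) := fun y => by
    by_cases hy : y ∈ T
    · rw [Set.indicator_of_mem hy]
      simp only [k, Finset.prod_mul_distrib, ← Real.exp_sum, ← Finset.mul_sum, wpl]
      refine le_mul_of_one_le_right (Real.exp_pos _).le (Real.one_le_exp (mul_nonneg hs.le ?_))
      simpa only [Finset.mul_sum] using hT y hy
    · rw [Set.indicator_of_notMem hy]; exact Finset.prod_nonneg fun a _ => by positivity
  refine (integral_mono i1 i2 hpt).trans ?_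
  rw [P166.gs, integral_fintype_prod_eq_prod (μ := fun _ : Fin M => gaussianReal 0 1) (f := fun _ => k)]
  simp only [Finset.prod_const, Finset.card_univ, Fintype.card_fin]
  exact pow_le_pow_left₀ (integral_nonneg fun x => by positivity) hle M

/-- The planted mass of the calm event is exponentially small. -/
theorem planted_small (hfm : Measurable f) (hB : ∀ x, |f x| ≤ B) {c lam : ℝ}
    (hc : ∫ x, Real.exp (f x) ∂g1 = c) (hc0 : 0 < c)
    (hd : ∫ x, he2 x * Real.exp (f x) ∂g1 = lam * c)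
    (hα : 0 < α) (hε : ε ^ 2 = 1) (hs : 0 < √α + ε) {t t' : ℝ} (ht : 0 < t) (htt : t < t')
    (ht' : t' * (√α + ε) < 1) (hlam : 0 ≤ 1 + lam) (hgap : 1 < ε * lam * α * t / (1 - ε * t)) :
    ∃ κ : ℝ, 0 < κ ∧ ∀ᶠ n : ℕ in atTop,
      ∫ G, (calm ε (phi α ε t') (n + 1) ⌊α * (n + 1 : ℕ)⌋₊).indicator (fun G => zf f G) G
          ∂pats (n + 1) ⌊α * (n + 1 : ℕ)⌋₊
        ≤ 3 * c ^ ⌊α * (n + 1 : ℕ)⌋₊ * Real.exp (-(κ * n)) := by
  set Mf : ℕ → ℕ := fun n => ⌊α * (n + 1 : ℕ)⌋₊
  have hM : Tendsto (fun n => (Mf n : ℝ) / n) atTop (𝓝 α) := by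
    have h1 := ((P166.Free.hM_floor hα.le).comp (tendsto_add_atTop_nat 1)).mul
      ((tendsto_one_div_add_atTop_nhds_zero_nat (𝕜 := ℝ)).const_sub 1 |>.inv₀ (by norm_num))
    simp only [sub_zero, inv_one, mul_one] at h1
    refine h1.congr' ((eventually_gt_atTop 0).mono fun n hn => ?_)
    have hn' : (0 : ℝ) < n := by exact_mod_cast hn
    simp only [Function.comp_apply, Mf]
    push_cast
    field_simp
    rw [add_sub_cancel_right]
    field_simp
  obtain ⟨η, hη, hspike⟩ := spike_prob hα hε hs hlam ht (lt_of_le_of_lt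
    (mul_le_mul_of_nonneg_right htt.le hs.le) ht') hgap hM
  set ℓ := phi α ε t'
  set ℓ₂ := phi α ε t
  -- the levels are ordered
  have hℓ : ℓ < ℓ₂ := by
    have h1 : 0 < 1 - ε * t' := by
      nlinarith [mul_pos (ht.trans htt) (Real.sqrt_pos.2 hα)]
    have h2 : 0 < 1 - ε * t := by
      nlinarith [mul_pos ht (Real.sqrt_pos.2 hα), mul_lt_mul_of_pos_right htt hs]
    have ht'0 := ht.trans htt
    have hl : ∀ u : ℝ, u ≠ 0 → 1 - ε * u ≠ 0 → phi α ε u * (u * (1 - ε * u)) = 1 - ε * u + α * ε * u :=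
      fun u hu hu' => by
        rw [phi, mul_div_assoc', div_add_div _ _ hu hu', div_mul_cancel₀ _ (mul_ne_zero hu hu')]
        ring
    have key : (ℓ₂ - ℓ) * (t * t' * ((1 - ε * t) * (1 - ε * t')))
        = (t' - t) * ((1 - ε * t) * (1 - ε * t') - α * t * t') := by
      linear_combination (t' * (1 - ε * t')) * hl t ht.ne' h2.ne' - (t * (1 - ε * t)) * hl t' ht'0.ne' h1.ne'
        - (α * t * t' * (t' - t)) * hε
    have h3 : t * √α < 1 - ε * t := by linarith [mul_lt_mul_of_pos_right htt hs]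
    have h4 : t' * √α < 1 - ε * t' := by linarith
    have h5 := mul_lt_mul h3 h4.le (mul_pos ht'0 (Real.sqrt_pos.2 hα)) h2.le
    have h6 : t * √α * (t' * √α) = α * t * t' := by linear_combination (t * t') * Real.sq_sqrt hα.le
    have : 0 < ℓ₂ - ℓ := by
      refine pos_of_mul_pos_left ?_ (show 0 ≤ t * t' * ((1 - ε * t) * (1 - ε * t')) by positivity)
      rw [key]; exact mul_pos (by linarith) (by linarith)
    linarith
  set ℓm := (ℓ + ℓ₂) / 2
  set κ₀ := min 1 ((ℓ₂ - ℓm) / (2 * √(|ℓm| + |ℓ₂|) + 1))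
  have hκ₀ : 0 < κ₀ := lt_min one_pos (div_pos (by simp only [ℓm]; linarith) (by positivity))
  -- one-sided Chernoff factors
  set η₁ := η / (2 * α)
  have hη₁ : 0 < η₁ := by positivity
  have iw : Integrable (fun x => Real.exp (f x)) g1 :=
    Integrable.of_bound hfm.exp.aestronglyMeasurable (Real.exp B) (ae_of_all _ fun x => by
      rw [Real.norm_eq_abs, Real.abs_exp]; exact Real.exp_le_exp.2 (abs_le.1 (hB x)).2)
  have hwb : ∀ x, |Real.exp (f x)| ≤ Real.exp B := fun x => by
    rw [Real.abs_exp]; exact Real.exp_le_exp.2 (abs_le.1 (hB x)).2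
  have ihe : Integrable (fun x => he2 x * Real.exp (f x)) g1 :=
    (nice_he2.integrable.norm.const_mul (Real.exp B)).mono' ((nice_he2.1.mul hfm.exp)).aestronglyMeasurable
      (ae_of_all _ fun x => by
        rw [norm_mul, mul_comm]
        exact mul_le_mul_of_nonneg_right (hwb x) (norm_nonneg _))
  have hmean : ∀ e A, ∫ x, Real.exp (f x) * (e * (x ^ 2 - A)) ∂gaussianReal 0 1 = e * (lam + 1 - A) * c := fun e A => by
    have e0 : ∀ x, Real.exp (f x) * (e * (x ^ 2 - A)) = e * (he2 x * Real.exp (f x)) + e * (1 - A) * Real.exp (f x) :=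
      fun x => by simp only [he2]; ring
    simp only [e0]
    rw [integral_add (ihe.const_mul _) (iw.const_mul _), integral_const_mul, integral_const_mul, hd, hc]
    ring
  obtain ⟨s₁, ρ₁, hs₁, hρ₁0, hρ₁, i₁, b₁⟩ := tilt_rate hfm.exp hwb (fun x => (Real.exp_pos _).le)
    (e := 1) (A := lam + 1 + η₁) (η := η₁ * c) (by simp) (mul_pos hη₁ hc0) hc hc0
    (by rw [hmean]; linarith)
  obtain ⟨s₂, ρ₂, hs₂, hρ₂0, hρ₂, i₂, b₂⟩ := tilt_rate hfm.exp hwb (fun x => (Real.exp_pos _).le)
    (e := -1) (A := lam + 1 - η₁) (η := η₁ * c) (by simp) (mul_pos hη₁ hc0) hc hc0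
    (by rw [hmean]; linarith)
  set k₁ := Real.log c - Real.log ρ₁
  set k₂ := Real.log c - Real.log ρ₂
  have hk₁ : 0 < k₁ := sub_pos.2 (Real.log_lt_log hρ₁0 hρ₁)
  have hk₂ : 0 < k₂ := sub_pos.2 (Real.log_lt_log hρ₂0 hρ₂)
  set κ := min (min (k₁ * α / 2) (k₂ * α / 2)) (κ₀ ^ 2 / (4 * Real.pi ^ 2))
  have hκ : 0 < κ := lt_min (lt_min (by positivity) (by positivity)) (by positivity)
  refine ⟨κ, hκ, ?_⟩
  have hMlow : ∀ᶠ n : ℕ in atTop, |(Mf n : ℝ) / n - α| ≤ min (α / 2) (η / (2 * (|lam + 1| + η₁ + 1))) := by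
    have := (hM.sub_const α).abs
    simp only [sub_self, abs_zero] at this
    exact this.eventually (eventually_le_nhds (lt_min (by positivity) (by positivity)))
  have hlev : ∀ᶠ n : ℕ in atTop, ℓ * ((n + 1 : ℕ) / n : ℝ) < ℓm := by
    have h1 : Tendsto (fun n : ℕ => ℓ * ((n + 1 : ℕ) / n : ℝ)) atTop (𝓝 ℓ) := by
      have := ((tendsto_const_nhds (x := (1 : ℝ))).add (tendsto_one_div_atTop_nhds_zero_nat (𝕜 := ℝ))).const_mul ℓ
      rw [add_zero, mul_one] at this
      refine this.congr' ((eventually_gt_atTop 0).mono fun n hn => ?_)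
      have hn' : (0 : ℝ) < n := by exact_mod_cast hn
      push_cast; field_simp
    exact h1.eventually (eventually_lt_nhds (by simp only [ℓm]; linarith))
  have hbig : ∀ᶠ n : ℕ in atTop, 6 ≤ κ₀ * √(n : ℝ) :=
    ((Real.tendsto_sqrt_atTop.comp tendsto_natCast_atTop_atTop).const_mul_atTop hκ₀).eventually_ge_atTop _
  filter_upwards [hspike, hMlow, hlev, hbig, eventually_gt_atTop 0] with n hS hMn hl hb hn
  have hn' : (0 : ℝ) < n := by exact_mod_cast hn
  obtain ⟨hMa, hMb⟩ := le_min_iff.1 hMn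
  change ∫ G, (calm ε ℓ (n + 1) (Mf n)).indicator (fun G => zf f G) G ∂pats (n + 1) (Mf n)
    ≤ 3 * c ^ Mf n * Real.exp (-(κ * n))
  set M := Mf n
  set Bs := calm ε ℓ (n + 1) M
  have hBs : MeasurableSet Bs := measurableSet_calm _ _ _ _
  have hMl : α / 2 * n ≤ M := by
    have := (abs_le.1 hMa).1
    rw [← le_div_iff₀ hn']; linarith
  rw [calm_moment hfm hB ℓ]
  set r : (Fin M → ℝ) → ℝ := fun y => (∑ a, y a ^ 2) / n
  set T₁ : Set (Fin M → ℝ) := {y | 0 ≤ ∑ a, (1 : ℝ) * (y a ^ 2 - (lam + 1 + η₁))}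
  set T₂ : Set (Fin M → ℝ) := {y | 0 ≤ ∑ a, (-1 : ℝ) * (y a ^ 2 - (lam + 1 - η₁))}
  have hT₁ : MeasurableSet T₁ := measurableSet_le measurable_const (by fun_prop)
  have hT₂ : MeasurableSet T₂ := measurableSet_le measurable_const (by fun_prop)
  -- sections
  set q := Real.exp (-(κ * n))
  have hsec : ∀ y : Fin M → ℝ, (P166.gs (n * M)).real {g | mk (y, g) ∈ Bs}
      ≤ T₁.indicator (fun _ => (1 : ℝ)) y + T₂.indicator (fun _ => (1 : ℝ)) y + q := fun y => by
    have hle1 : (P166.gs (n * M)).real {g | mk (y, g) ∈ Bs} ≤ 1 := measureReal_le_one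
    have hq0 : 0 ≤ q := (Real.exp_pos _).le
    have hi1 : 0 ≤ T₁.indicator (fun _ => (1 : ℝ)) y := Set.indicator_nonneg (fun _ _ => zero_le_one) y
    have hi2 : 0 ≤ T₂.indicator (fun _ => (1 : ℝ)) y := Set.indicator_nonneg (fun _ _ => zero_le_one) y
    by_cases hy1 : y ∈ T₁
    · rw [Set.indicator_of_mem hy1]; linarith
    by_cases hy2 : y ∈ T₂
    · rw [Set.indicator_of_mem hy2]; linarith
    refine le_trans ?_ (le_add_of_nonneg_left (add_nonneg hi1 hi2))
    simp only [T₁, T₂, Set.mem_ofPred_eq, not_le, one_mul, neg_one_mul, Finset.sum_neg_distrib,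
      Finset.sum_sub_distrib, Finset.sum_const, Finset.card_univ, Fintype.card_fin, nsmul_eq_mul] at hy1 hy2
    have hr : |r y - α * (1 + lam)| ≤ η := by
      set L := |lam + 1| + η₁ + 1
      set u := (M : ℝ) / n
      have hu0 : 0 ≤ u := by positivity
      have a1 : r y ≤ u * (lam + 1 + η₁) := by
        simp only [r, u]; rw [div_le_iff₀ hn', div_mul_eq_mul_div, div_mul_cancel₀ _ hn'.ne']; linarith
      have a2 : u * (lam + 1 - η₁) ≤ r y := by
        simp only [r, u]; rw [le_div_iff₀ hn', div_mul_eq_mul_div, div_mul_cancel₀ _ hn'.ne']; linarith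
      have hL0 : L ≠ 0 := (show 0 < L by positivity).ne'
      have hLη : η / (2 * L) * L = η / 2 := by field_simp
      have hαη : α * η₁ = η / 2 := by simp only [η₁]; field_simp
      have key : ∀ A, |A| ≤ L → |u * A - α * A| ≤ η / 2 := fun A hA => by
        rw [← sub_mul, abs_mul, ← hLη]
        exact mul_le_mul hMb hA (abs_nonneg _) (by positivity)
      have k1 := key (lam + 1 + η₁) ((abs_add_le _ _).trans (by rw [abs_of_pos hη₁]; simp only [L]; linarith))
      have k2 := key (lam + 1 - η₁) ((abs_sub _ _).trans (by rw [abs_of_pos hη₁]; simp only [L]; linarith))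
      rw [abs_le]
      constructor <;> linarith [(abs_le.1 k1).2, (abs_le.1 k2).1]
    set R := κ₀ * √(n : ℝ)
    refine (isoperim (R := R) (hS y hr) (by linarith) ?_).trans (Real.exp_le_exp.2 ?_)
    · intro g hg h hh
      obtain ⟨z, hz⟩ := hh
      simp only [Set.mem_ofPred_eq] at hg
      have hv := hg (Fin.cons 1 z)
      have edot : ∀ a, mk (y, g) a ⬝ᵥ (Fin.cons 1 z : Fin (n + 1) → ℝ) = y a + ((mat g)ᵀ *ᵥ z) a := fun a => by
        simp [mk, dotProduct, Fin.sum_univ_succ, Matrix.mulVec, Matrix.transpose_apply]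
      simp only [edot, Fin.sum_univ_succ, Fin.cons_zero, Fin.cons_succ, one_pow] at hv
      set Z := 1 + ∑ i, z i ^ 2
      have hZ : 1 ≤ Z := le_add_of_nonneg_right (Finset.sum_nonneg fun i _ => sq_nonneg _)
      set a₁ : Fin M → ℝ := fun a => y a + ((mat g)ᵀ *ᵥ z) a
      set a₂ : Fin M → ℝ := fun a => y a + ((mat h)ᵀ *ᵥ z) a
      set S₁ := ∑ a, a₁ a ^ 2
      set S₂ := ∑ a, a₂ a ^ 2
      have hS₁ : 0 ≤ S₁ := Finset.sum_nonneg fun a _ => sq_nonneg _
      have hS₂ : 0 ≤ S₂ := Finset.sum_nonneg fun a _ => sq_nonneg _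
      set A := √S₁ / √(n * Z)
      set D := √S₂ / √(n * Z)
      have hA2 : A ^ 2 = S₁ / (n * Z) := by
        simp only [A, div_pow, Real.sq_sqrt hS₁, Real.sq_sqrt (show (0 : ℝ) ≤ n * Z by positivity)]
      have hD2 : D ^ 2 = S₂ / (n * Z) := by
        simp only [D, div_pow, Real.sq_sqrt hS₂, Real.sq_sqrt (show (0 : ℝ) ≤ n * Z by positivity)]
      have h1 : ε * A ^ 2 ≤ ℓm := by
        rw [hA2]
        refine le_trans ?_ hl.le
        rw [div_le_iff₀ (by positivity)] at hv
        rw [mul_div_assoc', div_le_iff₀ (by positivity)]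
        refine le_of_le_of_eq hv ?_
        field_simp
      have h2 : ℓ₂ < ε * D ^ 2 := by
        rw [hD2]
        rw [lt_div_iff₀ hn'] at hz
        rw [mul_div_assoc', lt_div_iff₀ (by positivity)]
        refine lt_of_eq_of_lt ?_ hz
        ring
      have hsep := sep hε (by positivity) (by positivity) h1 h2
      change κ₀ ≤ |A - D| at hsep
      have hnZ : 0 < √((n : ℝ) * Z) := Real.sqrt_pos.2 (by positivity)
      -- the change is controlled by the distance
      set E := √(∑ j, (g j - h j) ^ 2)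
      have hdist : ∑ a, (a₁ a - a₂ a) ^ 2 ≤ E ^ 2 * Z := by
        have hsum : ∑ j, (g j - h j) ^ 2 = ∑ a, ∑ i, (mat g i a - mat h i a) ^ 2 := by
          rw [← finProdFinEquiv.sum_comp fun j => (g j - h j) ^ 2, Fintype.sum_prod_type, Finset.sum_comm]
          rfl
        rw [Real.sq_sqrt (Finset.sum_nonneg fun j _ => sq_nonneg _), hsum, Finset.sum_mul]
        refine Finset.sum_le_sum fun a _ => ?_
        have e : a₁ a - a₂ a = ∑ i, (mat g i a - mat h i a) * z i := by
          simp [a₁, a₂, Matrix.mulVec, dotProduct, sub_mul]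
        rw [e]
        exact (Finset.sum_mul_sq_le_sq_mul_sq _ _ _).trans
          (mul_le_mul_of_nonneg_left (by simp only [Z]; linarith) (Finset.sum_nonneg fun i _ => sq_nonneg _))
      have htri : |√S₁ - √S₂| ≤ E * √Z := by
        have hcs : ∀ u v : Fin M → ℝ, √(∑ a, u a ^ 2) ≤ √(∑ a, v a ^ 2) + √(∑ a, (u a - v a) ^ 2) := fun u v => by
          have := norm_le_norm_add_norm_sub (WithLp.toLp 2 v : EuclideanSpace ℝ (Fin M)) (WithLp.toLp 2 u)
          simpa [EuclideanSpace.norm_eq, sub_sq_comm] using this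
        have hd : √(∑ a, (a₁ a - a₂ a) ^ 2) ≤ E * √Z := by
          refine (Real.sqrt_le_sqrt hdist).trans_eq ?_
          rw [Real.sqrt_mul (sq_nonneg _), Real.sqrt_sq (Real.sqrt_nonneg _)]
        have k1 := hcs a₁ a₂
        have k2 := hcs a₂ a₁
        have hflip : ∑ a, (a₂ a - a₁ a) ^ 2 = ∑ a, (a₁ a - a₂ a) ^ 2 := Finset.sum_congr rfl fun a _ => by ring
        rw [hflip] at k2
        rw [abs_le]; constructor <;> linarith
      have e1 : |√S₁ - √S₂| = |A - D| * √((n : ℝ) * Z) := by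
        rw [show √S₁ - √S₂ = (A - D) * √((n : ℝ) * Z) by
          simp only [A, D, sub_mul, div_mul_cancel₀ _ hnZ.ne'], abs_mul, abs_of_pos hnZ]
      rw [e1, Real.sqrt_mul hn'.le] at htri
      have hZ0 : 0 < √Z := Real.sqrt_pos.2 (by linarith)
      refine le_trans (mul_le_mul_of_nonneg_right hsep (Real.sqrt_nonneg _)) ?_
      refine le_of_mul_le_mul_right ?_ hZ0
      linarith
    · rw [neg_le_neg_iff]
      have h1 : R / 2 ≤ R - 3 := by linarith
      have h2 : (R / 2) ^ 2 ≤ (R - 3) ^ 2 := pow_le_pow_left₀ (by positivity) h1 2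
      have h3 : κ * n ≤ κ₀ ^ 2 / (4 * Real.pi ^ 2) * n := mul_le_mul_of_nonneg_right (min_le_right _ _) hn'.le
      have h4 : κ₀ ^ 2 / (4 * Real.pi ^ 2) * n = 1 * (R / 2) ^ 2 / Real.pi ^ 2 := by
        simp only [R, mul_pow, div_pow, Real.sq_sqrt hn'.le]; ring
      refine h3.trans (h4.trans_le ?_)
      refine div_le_div_of_nonneg_right ?_ (sq_nonneg _)
      linarith [sq_nonneg (R / 2)]
  -- Fubini
  have hwm : Measurable (wpl f (M := M)) := by unfold wpl; fun_prop
  have iy : Integrable (wpl f (M := M)) (P166.gs M) :=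
    Integrable.of_bound hwm.aestronglyMeasurable (Real.exp (M * B)) (ae_of_all _ fun y => by
      rw [Real.norm_eq_abs, abs_of_nonneg (wpl_le hB y).1]; exact (wpl_le hB y).2)
  set F : (Fin M → Fin (n + 1) → ℝ) → ℝ := Bs.indicator fun G => wpl f fun a => G a 0
  have hFi : Integrable F (pats (n + 1) M) := by
    refine (Integrable.of_bound (Measurable.aestronglyMeasurable ?_) (Real.exp (M * B))
      (ae_of_all _ fun G => ?_)).indicator hBs
    · unfold wpl; fun_prop
    · rw [Real.norm_eq_abs, abs_of_nonneg (wpl_le hB _).1]; exact (wpl_le hB _).2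
  have hpre : ∀ y, MeasurableSet {g : Fin (n * M) → ℝ | mk (y, g) ∈ Bs} := fun y =>
    ((mp_mk n M).measurable.comp measurable_prodMk_left) hBs
  have hFmk : ∀ y g, F (mk (y, g)) = wpl f y * {g | mk (y, g) ∈ Bs}.indicator (fun _ => (1 : ℝ)) g := fun y g => by
    by_cases h : mk (y, g) ∈ Bs
    · rw [Set.indicator_of_mem (show g ∈ {g | mk (y, g) ∈ Bs} from h), mul_one]
      simp only [F, Set.indicator_of_mem h]
      simp [mk]
    · rw [Set.indicator_of_notMem (show g ∉ {g | mk (y, g) ∈ Bs} from h), mul_zero]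
      simp only [F, Set.indicator_of_notMem h]
  have hFp : Integrable (fun p : (Fin M → ℝ) × (Fin (n * M) → ℝ) => F (mk p))
      ((P166.gs M).prod (P166.gs (n * M))) := (mp_mk n M).integrable_comp_of_integrable hFi
  have hval : ∀ y, ∫ g, F (mk (y, g)) ∂P166.gs (n * M)
      = wpl f y * (P166.gs (n * M)).real {g | mk (y, g) ∈ Bs} := fun y => by
    simp only [hFmk]
    rw [integral_const_mul, integral_indicator_const _ (hpre y), smul_eq_mul, mul_one]
  conv_lhs => rw [← (mp_mk n M).map_eq]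
  rw [integral_map (mp_mk n M).measurable.aemeasurable (by rw [(mp_mk n M).map_eq]; exact hFi.aestronglyMeasurable),
    integral_prod _ hFp]
  simp only [hval]
  have iv : Integrable (fun y => wpl f y * (P166.gs (n * M)).real {g | mk (y, g) ∈ Bs}) (P166.gs M) := by
    simpa only [hval] using hFp.integral_prod_left
  have hsplit : ∀ y, wpl f y * (P166.gs (n * M)).real {g | mk (y, g) ∈ Bs}
      ≤ T₁.indicator (wpl f) y + T₂.indicator (wpl f) y + q * wpl f y := fun y => by
    refine (mul_le_mul_of_nonneg_left (hsec y) (wpl_le hB y).1).trans_eq ?_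
    simp only [Set.indicator_apply]
    split_ifs <;> ring
  refine (integral_mono iv (((iy.indicator hT₁).fun_add (iy.indicator hT₂)).fun_add (iy.const_mul q)) hsplit).trans ?_
  rw [integral_add ((iy.indicator hT₁).fun_add (iy.indicator hT₂)) (iy.const_mul q),
    integral_add (iy.indicator hT₁) (iy.indicator hT₂), integral_const_mul]
  have hw : ∫ y, wpl f y ∂P166.gs M = c ^ M := by
    simp only [wpl, P166.gs]
    rw [integral_fintype_prod_eq_prod (μ := fun _ : Fin M => gaussianReal 0 1) (f := fun _ x => Real.exp (f x))]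
    change ∫ x, Real.exp (f x) ∂gaussianReal 0 1 = c at hc
    simp [hc]
  have hpow : ∀ ρ k : ℝ, 0 < ρ → k = Real.log c - Real.log ρ → 0 < k → κ ≤ k * α / 2 → ρ ^ M ≤ c ^ M * q :=
    fun ρ k hρ hk hk0 hκk => by
      rw [pow_eq_exp (Or.inl hρ), pow_eq_exp (Or.inl hc0), ← Real.exp_add, Real.exp_le_exp]
      have h1 := mul_le_mul_of_nonneg_left hMl hk0.le
      have h2 := mul_le_mul_of_nonneg_right hκk hn'.le
      subst hk
      linarith
  have b1' := tail_le hfm hB hs₁ i₁ b₁ M hT₁ fun y hy => hy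
  have b2' := tail_le hfm hB hs₂ i₂ b₂ M hT₂ fun y hy => hy
  have p1 := hpow ρ₁ k₁ hρ₁0 rfl hk₁ ((min_le_left _ _).trans (min_le_left _ _))
  have p2 := hpow ρ₂ k₂ hρ₂0 rfl hk₂ ((min_le_left _ _).trans (min_le_right _ _))
  rw [hw]
  linarith

/-- The pressure misses the annealed value by a linear amount. -/
theorem press_gap (hfm : Measurable f) (hB : ∀ x, |f x| ≤ B) {c lam : ℝ}
    (hc : ∫ x, Real.exp (f x) ∂g1 = c) (hc0 : 0 < c)
    (hd : ∫ x, he2 x * Real.exp (f x) ∂g1 = lam * c)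
    (hα : 0 < α) (hlam : 0 ≤ 1 + lam) (hsup : 1 < α * lam ^ 2) :
    ∃ κ : ℝ, 0 < κ ∧ ∀ᶠ n : ℕ in atTop,
      press f n ⌊α * n⌋₊ ≤ ⌊α * n⌋₊ * Real.log c - κ * n := by
  have hB0 : 0 ≤ B := (abs_nonneg _).trans (hB 0)
  set ε : ℝ := if 0 < lam then 1 else -1
  have hε : ε ^ 2 = 1 := by simp only [ε]; split_ifs <;> norm_num
  have hlam0 : lam ≠ 0 := fun h => by rw [h] at hsup; norm_num at hsup
  have hεl : ε * lam = |lam| := by
    simp only [ε]
    split_ifs with h
    · rw [one_mul, abs_of_pos h]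
    · rw [abs_of_nonpos (not_lt.1 h)]; ring
  have hs : 0 < √α + ε := by
    simp only [ε]
    split_ifs with h
    · positivity
    · push Not at h
      have h1 : lam ^ 2 ≤ 1 := by nlinarith
      have : 1 < α := lt_of_lt_of_le hsup (mul_le_of_le_one_right hα.le h1)
      have := Real.lt_sqrt zero_le_one |>.2 (show (1 : ℝ) ^ 2 < α by linarith)
      linarith
  have hroot : 1 < |lam| * √α := by
    have h : (1 : ℝ) ^ 2 < (|lam| * √α) ^ 2 := by
      rw [mul_pow, sq_abs, Real.sq_sqrt hα.le]; linarith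
    exact lt_of_pow_lt_pow_left₀ 2 (by positivity) h
  set den := ε + |lam| * α
  have hden : √α + ε < den := by
    have := mul_lt_mul_of_pos_right hroot (Real.sqrt_pos.2 hα)
    simp only [den]
    rw [mul_assoc, Real.mul_self_sqrt hα.le] at this
    linarith
  have hden0 : 0 < den := hs.trans hden
  -- two levels between the critical point and the spike
  set u := 1 / den
  set w := 1 / (√α + ε)
  have huw : u < w := one_div_lt_one_div_of_lt hs hden
  set t := (2 * u + w) / 3
  set t' := (u + 2 * w) / 3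
  have hu : 0 < u := by positivity
  have ht : 0 < t := by simp only [t]; positivity
  have htt : t < t' := by simp only [t, t']; linarith
  have ht' : t' * (√α + ε) < 1 := by
    calc t' * (√α + ε) < w * (√α + ε) := mul_lt_mul_of_pos_right (by simp only [t']; linarith) hs
      _ = 1 := by simp only [w]; field_simp
  have hgap : 1 < ε * lam * α * t / (1 - ε * t) := by
    have htl : t * (√α + ε) < 1 := (mul_lt_mul_of_pos_right htt hs).trans ht'
    have h1 : 0 < 1 - ε * t := by linarith [mul_pos ht (Real.sqrt_pos.2 hα)]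
    rw [lt_div_iff₀ h1, hεl]
    have : 1 < den * t := by
      calc (1 : ℝ) = den * u := by simp only [u]; field_simp
        _ < den * t := mul_lt_mul_of_pos_left (by simp only [t]; linarith) hden0
    simp only [den] at this
    linarith
  obtain ⟨κ, hκ, hsmall⟩ := planted_small hfm hB hc hc0 hd hα hε hs ht htt ht' hlam hgap
  refine ⟨κ / 4, by positivity, ?_⟩
  -- the null law is calm
  set ℓ := phi α ε t'
  have hε1 : ∀ _x : ℝ, |ε| ≤ 1 := fun _ => by rw [← sq_le_one_iff_abs_le_one, hε]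
  obtain ⟨μ, C, e, hμ, heC⟩ := exists_law (ν := Measure.dirac (1 : ℝ)) hα.le hε1 measurable_const
  have hC : 0 ≤ C := (abs_nonneg e).trans heC
  have heℓ := (stieltjes_const hα hε hs hC hμ (ht.trans htt) ht').1
  set θ := κ / (8 * (κ + 2 * α * B + 1))
  have hθ : 0 < θ := by positivity
  have hnull := top_prob (ν := Measure.dirac (1 : ℝ)) hα.le hε1 measurable_const hμ
    (η := ℓ - e) (by linarith) hθ
  obtain ⟨n₀, hn₀⟩ := eventually_atTop.1 (hnull.and ((Filter.eventually_ge_atTop 1).and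
    (tendsto_natCast_atTop_atTop.eventually_ge_atTop (8 * (3 + κ) / κ + 1 : ℝ))))
  obtain ⟨n₁, hn₁⟩ := eventually_atTop.1 hsmall
  refine eventually_atTop.2 ⟨max n₀ n₁ + 1, fun N hN => ?_⟩
  obtain ⟨n, rfl⟩ : ∃ n, N = n + 1 := ⟨N - 1, by omega⟩
  obtain ⟨hp, -, hlarge⟩ := hn₀ (n + 1) (by omega)
  have hpl := hn₁ n (by omega)
  set M := ⌊α * (n + 1 : ℕ)⌋₊
  set Bs := calm ε ℓ (n + 1) M
  have hBs : MeasurableSet Bs := measurableSet_calm _ _ _ _
  set π := pats (n + 1) M
  have hbad : π.real Bsᶜ < θ := by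
    have hmp : MeasurePreserving (fun (G : Fin M → Fin (n + 1) → ℝ) a => (G a, (1 : ℝ))) π
        (P166.pats (Measure.dirac 1) (n + 1) M) :=
      measurePreserving_pi (fun _ : Fin M => gs (n + 1)) (fun _ : Fin M => P166.pl (Measure.dirac 1) (n + 1))
        (f := fun _ (x : Fin (n + 1) → ℝ) => (x, (1 : ℝ))) fun _ =>
          ⟨by fun_prop, by rw [P166.pl, Measure.prod_dirac]; rfl⟩
    refine lt_of_le_of_lt (le_trans (measureReal_mono (s₂ := (fun G a => (G a, (1 : ℝ))) ⁻¹'
      {P | ∃ v, ∑ i, v i ^ 2 = 1 ∧ e + (ℓ - e) < qf (jm (fun _ => ε) P) v}) fun G hG => ?_)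
      (ENNReal.toReal_mono (measure_ne_top _ _) (hmp.measure_preimage_le _))) hp
    simp only [Bs, calm, Set.mem_compl_iff, Set.mem_ofPred_eq, not_forall, not_le] at hG
    obtain ⟨v, hv⟩ := hG
    set S := ∑ i, v i ^ 2
    have hS0 : 0 < S := by
      rcases (Finset.sum_nonneg fun i _ => sq_nonneg (v i) : 0 ≤ S).eq_or_lt with h | h
      · exfalso
        have hv0 : v = 0 := funext fun i => by
          simpa using (Finset.sum_eq_zero_iff_of_nonneg fun i _ => sq_nonneg (v i)).1 h.symm i (mem_univ i)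
        simp [hv0, S] at hv
      · exact h
    have hsS : √S ^ 2 = S := Real.sq_sqrt hS0.le
    refine ⟨fun i => v i / √S, by simp only [div_pow, ← Finset.sum_div, hsS]; exact div_self hS0.ne', ?_⟩
    rw [add_sub_cancel, jm_qf]
    have e1 : ∀ a, (G a ⬝ᵥ fun i => v i / √S) = (G a ⬝ᵥ v) / √S := fun a => by
      simp [dotProduct, mul_div_assoc', Finset.sum_div]
    simp only [e1, div_pow, hsS, mul_div_assoc', ← Finset.sum_div, ← Finset.mul_sum]
    rw [div_right_comm, lt_div_iff₀ hS0]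
    exact hv
  -- Jensen on the calm event
  set K := κ * (n : ℝ)
  have hcm : 0 < c ^ M := pow_pos hc0 M
  have habs : |Real.log c| ≤ B := by
    have iw : Integrable (fun x => Real.exp (f x)) g1 :=
      Integrable.of_bound hfm.exp.aestronglyMeasurable (Real.exp B) (ae_of_all _ fun x => by
        rw [Real.norm_eq_abs, Real.abs_exp]; exact Real.exp_le_exp.2 (abs_le.1 (hB x)).2)
    have h1 : c ≤ Real.exp B := by
      rw [← hc]
      exact (integral_mono iw (integrable_const _) fun x => Real.exp_le_exp.2 (abs_le.1 (hB x)).2).trans_eq (by simp)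
    have h2 : Real.exp (-B) ≤ c := by
      rw [← hc]
      exact le_of_eq_of_le (by simp) (integral_mono (integrable_const _) iw fun x => Real.exp_le_exp.2 (abs_le.1 (hB x)).1)
    exact abs_le.2 ⟨(Real.le_log_iff_exp_le hc0).2 h2, (Real.log_le_iff_le_exp hc0).2 h1⟩
  have hpt : ∀ G, Real.log (zf f G) - M * Real.log c
      ≤ (c ^ M * Real.exp (-K))⁻¹ * Bs.indicator (fun G => zf f G) G
        + (Bs.indicator (fun _ => -K - 1) G + Bsᶜ.indicator (fun _ => 2 * M * B) G) := fun G => by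
    by_cases hG : G ∈ Bs
    · rw [Set.indicator_of_mem hG, Set.indicator_of_mem hG, Set.indicator_of_notMem (Set.notMem_compl_iff.2 hG), add_zero]
      have hpos : 0 < (c ^ M * Real.exp (-K))⁻¹ * zf f G := mul_pos (by positivity) (zf_pos f G)
      have h := Real.log_le_sub_one_of_pos hpos
      rw [Real.log_mul (by positivity) (zf_pos f G).ne', Real.log_inv, Real.log_mul hcm.ne' (Real.exp_pos _).ne',
        Real.log_exp, Real.log_pow] at h
      linarith
    · rw [Set.indicator_of_notMem hG, Set.indicator_of_notMem hG, Set.indicator_of_mem (Set.mem_compl hG),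
        mul_zero, zero_add, zero_add]
      have h1 := (abs_le.1 (abs_log_zf hB G)).2
      have h2 := mul_le_mul_of_nonneg_left (abs_le.1 habs).1 (Nat.cast_nonneg M)
      linarith
  have i1 : Integrable (Bs.indicator fun G => zf f G) π := by
    refine Integrable.indicator ?_ hBs
    simpa using integrable_zf hfm hB (n + 1) M 1
  have i2 : Integrable (Bs.indicator fun _ => -K - 1) π := (integrable_const _).indicator hBs
  have i3 : Integrable (Bsᶜ.indicator fun _ => 2 * (M : ℝ) * B) π := (integrable_const _).indicator hBs.compl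
  have hI := integral_mono ((integrable_press hfm hB (n + 1) M).sub' (integrable_const _))
    ((i1.const_mul _).fun_add (i2.fun_add i3)) hpt
  rw [integral_sub (integrable_press hfm hB (n + 1) M) (integrable_const _),
    integral_add (i1.const_mul _) (i2.fun_add i3), integral_add i2 i3, integral_const_mul,
    integral_indicator_const _ hBs, integral_indicator_const _ hBs.compl, integral_const, probReal_univ,
    one_smul, smul_eq_mul, smul_eq_mul] at hI
  change press f (n + 1) M - M * Real.log c ≤ _ at hI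
  simp only [integral_const_mul] at hI
  have hfirst : (c ^ M * Real.exp (-K))⁻¹ * ∫ G, Bs.indicator (fun G => zf f G) G ∂π ≤ 3 := by
    rw [inv_mul_le_iff₀ (by positivity)]
    refine hpl.trans_eq ?_
    simp only [K]; ring
  have hB1 : π.real Bs = 1 - π.real Bsᶜ := by rw [measureReal_compl hBs, probReal_univ]; ring
  have hMle : (M : ℝ) ≤ α * (n + 1 : ℕ) := Nat.floor_le (by positivity)
  push_cast at hMle hlarge ⊢
  have hKn : 8 * (3 + κ) ≤ κ * (n : ℝ) := by
    rw [div_add_one hκ.ne', div_le_iff₀ hκ] at hlarge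
    linarith
  set P := π.real Bsᶜ
  have hP0 : 0 ≤ P := measureReal_nonneg
  rw [hB1] at hI
  have t1 : P * K ≤ θ * K := mul_le_mul_of_nonneg_right hbad.le (by positivity)
  have t2 : P * (2 * M * B) ≤ θ * (2 * (α * (n + 1)) * B) :=
    mul_le_mul hbad.le (by gcongr) (by positivity) hθ.le
  have hθ' : θ * (8 * (κ + 2 * α * B + 1)) = κ := by simp only [θ]; field_simp
  have t3 : θ * (K + 2 * (α * (n + 1)) * B) ≤ θ * (κ + 2 * α * B + 1) * (n + 1) := by
    rw [mul_assoc θ (κ + 2 * α * B + 1)]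
    refine mul_le_mul_of_nonneg_left ?_ hθ.le
    simp only [K]
    linarith [Nat.cast_nonneg (α := ℝ) n]
  have t4 : θ * (κ + 2 * α * B + 1) * (n + 1) = κ / 8 * (n + 1) := by
    linear_combination ((n : ℝ) + 1) / 8 * hθ'
  have hPl : P ≤ 1 := measureReal_le_one
  simp only [K] at hI t1 t3
  linarith

end Vale.Agent.P157.Threshold
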